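import Vale.Agent.P251.H.PuppeInst
import Mathlib.CategoryTheory.Limits.Shapes.WideEqualizers

/-!
# P257, block F: orbit objects

`IsOrb ρ π`: the morphism `π : Y ⟶ Q` is the quotient of `Y` by a family `ρ` of endomorphisms.
The notion is unbundled, so it applies to every construction of orbits.
-/

open CategoryTheory MonoidalCategory Limits

namespace Vale.Agent.P257.F

universe v u v' u'

section general

variable {C : Type u} [Category.{v} C]

/-- `π : Y ⟶ Q` is the quotient of `Y` by the endomorphisms `ρ i`. -/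
structure IsOrb {ι : Type} {Y Q : C} (ρ : ι → (Y ⟶ Y)) (π : Y ⟶ Q) : Prop where
  w : ∀ i, ρ i ≫ π = π
  desc : ∀ {Z : C} (f : Y ⟶ Z), (∀ i, ρ i ≫ f = f) → ∃ g : Q ⟶ Z, π ≫ g = f
  ext : ∀ {Z : C} {g g' : Q ⟶ Z}, π ≫ g = π ≫ g' → g = g'

/-- A left action by endomorphisms. -/
structure IsAct {Γ : Type} [Monoid Γ] {Y : C} (ρ : Γ → (Y ⟶ Y)) : Prop where
  one : ρ 1 = 𝟙 Y
  mul : ∀ g h, ρ (g * h) = ρ h ≫ ρ g

namespace IsAct

variable {Γ : Type} [Group Γ] {Y : C} {ρ : Γ → (Y ⟶ Y)}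

theorem inv_comp (h : IsAct ρ) (g : Γ) : ρ g⁻¹ ≫ ρ g = 𝟙 Y := by
  rw [← h.mul, mul_inv_cancel, h.one]

theorem comp_inv (h : IsAct ρ) (g : Γ) : ρ g ≫ ρ g⁻¹ = 𝟙 Y := by
  rw [← h.mul, inv_mul_cancel, h.one]

theorem comp_hom {Γ' : Type} [Monoid Γ'] (h : IsAct ρ) (φ : Γ' →* Γ) :
    IsAct (fun g => ρ (φ g)) :=
  ⟨by rw [map_one, h.one], fun g g' => by rw [map_mul, h.mul]⟩

theorem subgroup (h : IsAct ρ) (K : Subgroup Γ) : IsAct (fun g : K => ρ g) :=
  h.comp_hom K.subtype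

theorem map {D : Type u'} [Category.{v'} D] (h : IsAct ρ) (F : C ⥤ D) :
    IsAct (fun g => F.map (ρ g)) :=
  ⟨by rw [h.one, F.map_id], fun g g' => by rw [h.mul, F.map_comp]⟩

theorem tensor [MonoidalCategory C] (h : IsAct ρ) {Y' : C} {ρ' : Γ → (Y' ⟶ Y')}
    (h' : IsAct ρ') : IsAct (fun g => ρ g ⊗ₘ ρ' g) :=
  ⟨by rw [h.one, h'.one, id_tensorHom_id], fun g g' => by
    rw [h.mul, h'.mul, tensorHom_comp_tensorHom]⟩

theorem const (Γ : Type) [Monoid Γ] (Y : C) : IsAct (fun _ : Γ => 𝟙 Y) :=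
  ⟨rfl, fun _ _ => (Category.comp_id _).symm⟩

end IsAct

namespace IsOrb

variable {ι ι' : Type} {Y Q Y' Q' : C} {ρ : ι → (Y ⟶ Y)} {π : Y ⟶ Q}

theorem epi (h : IsOrb ρ π) : Epi π := ⟨fun _ _ e => h.ext e⟩

/-- Only the invariant morphisms matter. -/
theorem congr (h : IsOrb ρ π) {ρ' : ι' → (Y ⟶ Y)}
    (H : ∀ {Z : C} (f : Y ⟶ Z), (∀ i, ρ i ≫ f = f) ↔ ∀ i, ρ' i ≫ f = f) : IsOrb ρ' π :=
  ⟨(H π).mp h.w, fun f hf => h.desc f ((H f).mpr hf), h.ext⟩

theorem reindex (h : IsOrb ρ π) {ρ' : ι' → (Y ⟶ Y)} (h1 : ∀ i, ∃ j, ρ' j = ρ i)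
    (h2 : ∀ j, ∃ i, ρ i = ρ' j) : IsOrb ρ' π :=
  h.congr fun f => ⟨fun H j => by obtain ⟨i, hi⟩ := h2 j; rw [← hi, H],
    fun H i => by obtain ⟨j, hj⟩ := h1 i; rw [← hj, H]⟩

theorem of_forall_eq_id {ρ : ι → (Y ⟶ Y)} (h : ∀ i, ρ i = 𝟙 Y) : IsOrb ρ (𝟙 Y) :=
  ⟨fun i => by rw [h, Category.id_comp], fun f _ => ⟨f, Category.id_comp _⟩,
    fun e => by rwa [Category.id_comp, Category.id_comp] at e⟩

/-- the induced morphism of orbit objects -/
theorem exists_map (h : IsOrb ρ π) {ρ' : ι → (Y' ⟶ Y')} {π' : Y' ⟶ Q'}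
    (h' : ∀ i, ρ' i ≫ π' = π') (f : Y ⟶ Y') (hf : ∀ i, ρ i ≫ f = f ≫ ρ' i) :
    ∃ g : Q ⟶ Q', π ≫ g = f ≫ π' :=
  h.desc _ fun i => by rw [reassoc_of% (hf i), h']

/-- uniqueness of orbit objects -/
theorem exists_iso (h : IsOrb ρ π) {π' : Y ⟶ Q'} (h' : IsOrb ρ π') :
    ∃ e : Q ≅ Q', π ≫ e.hom = π' := by
  obtain ⟨g, hg⟩ := h.desc π' h'.w
  obtain ⟨g', hg'⟩ := h'.desc π h.w
  exact ⟨⟨g, g', h.ext (by rw [reassoc_of% hg, hg', Category.comp_id]),
    h'.ext (by rw [reassoc_of% hg', hg, Category.comp_id])⟩, hg⟩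

theorem comp_iso (h : IsOrb ρ π) (e : Q ≅ Q') : IsOrb ρ (π ≫ e.hom) :=
  ⟨fun i => by rw [reassoc_of% (h.w i)], fun f hf => by
    obtain ⟨g, hg⟩ := h.desc f hf
    exact ⟨e.inv ≫ g, by rw [Category.assoc, e.hom_inv_id_assoc, hg]⟩, fun {Z g g'} H => by
    rw [Category.assoc, Category.assoc] at H
    exact (cancel_epi e.hom).mp (h.ext H)⟩

/-- transport along an equivariant isomorphism -/
theorem iso_comp (h : IsOrb ρ π) {ρ' : ι → (Y' ⟶ Y')} (e : Y' ≅ Y)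
    (he : ∀ i, ρ' i ≫ e.hom = e.hom ≫ ρ i) : IsOrb ρ' (e.hom ≫ π) :=
  ⟨fun i => by rw [reassoc_of% (he i), h.w], fun f hf => by
    obtain ⟨g, hg⟩ := h.desc (e.inv ≫ f) (fun i => by
      rw [← cancel_epi e.hom, e.hom_inv_id_assoc, ← reassoc_of% (he i), e.hom_inv_id_assoc, hf])
    exact ⟨g, by rw [Category.assoc, hg, e.hom_inv_id_assoc]⟩, fun {Z g g'} H => by
    rw [Category.assoc, Category.assoc, cancel_epi] at H
    exact h.ext H⟩

/-- orbits in two steps -/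
theorem trans (h : IsOrb ρ π) {σ : ι' → (Y ⟶ Y)} {τ : ι' → (Q ⟶ Q)}
    (hτ : ∀ j, σ j ≫ π = π ≫ τ j) {π' : Q ⟶ Q'} (h' : IsOrb τ π') :
    IsOrb (Sum.elim ρ σ) (π ≫ π') := by
  refine ⟨?_, fun f hf => ?_, fun {Z g g'} H => ?_⟩
  · rintro (i | j)
    · exact (reassoc_of% (h.w i)) _
    · change σ j ≫ _ = _
      rw [reassoc_of% (hτ j), h'.w]
  · obtain ⟨g, rfl⟩ := h.desc f (fun i => hf (Sum.inl i))
    obtain ⟨g', rfl⟩ := h'.desc g (fun j => h.ext (by
      rw [← reassoc_of% (hτ j)]; exact hf (Sum.inr j)))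
    exact ⟨g', Category.assoc _ _ _⟩
  · rw [Category.assoc, Category.assoc] at H
    exact h'.ext (h.ext H)

/-- the family of parallel arrows whose colimit is the orbit object -/
def fam (ρ : ι → (Y ⟶ Y)) : Option ι → (Y ⟶ Y) := fun o => o.elim (𝟙 Y) ρ

/-- the cocone of an invariant morphism -/
noncomputable def cotr {Z : C} (f : Y ⟶ Z) (hf : ∀ i, ρ i ≫ f = f) : Cotrident (fam ρ) :=
  Cotrident.ofπ f (by
    have : ∀ o, fam ρ o ≫ f = f := by
      rintro (_ | i)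
      · exact Category.id_comp _
      · exact hf i
    intro j₁ j₂
    rw [this, this])

theorem of_isColimit {t : Cotrident (fam ρ)} (ht : IsColimit t) : IsOrb ρ t.π := by
  refine ⟨fun i => ?_, fun f hf => ⟨ht.desc (cotr f hf), ?_⟩, fun H => ?_⟩
  · exact (t.condition (some i) none).trans (Category.id_comp _)
  · exact ht.fac (cotr f hf) WalkingParallelFamily.one
  · exact Cotrident.IsColimit.hom_ext ht H

theorem nonempty_isColimit (h : IsOrb ρ π) : Nonempty (IsColimit (cotr π h.w)) := by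
  have key : ∀ s : Cotrident (fam ρ), ∃ g : Q ⟶ s.pt, π ≫ g = s.π := fun s =>
    h.desc s.π fun i => (s.condition (some i) none).trans (Category.id_comp _)
  choose g hg using key
  exact ⟨Cotrident.IsColimit.mk _ g hg (fun s m hm =>
    h.ext ((hm WalkingParallelFamily.one).trans (hg s).symm))⟩

/-- Functors preserving colimits preserve orbits. -/
theorem map {D : Type u'} [Category.{v'} D] (h : IsOrb ρ π) (F : C ⥤ D)
    [PreservesColimitsOfSize.{0, 0} F] : IsOrb (fun i => F.map (ρ i)) (F.map π) := by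
  obtain ⟨hc⟩ := h.nonempty_isColimit
  have hF := isColimitOfPreserves F hc
  refine ⟨fun i => by rw [← F.map_comp, h.w], fun {Z} f hf => ?_, fun {Z g g'} H => ?_⟩
  · have hf' : ∀ o, F.map (fam ρ o) ≫ f = f := by
      rintro (_ | i)
      · exact (congrArg (· ≫ f) (F.map_id Y)).trans (Category.id_comp _)
      · exact hf i
    let s : Cocone (parallelFamily (fam ρ) ⋙ F) :=
      { pt := Z
        ι :=
          { app := fun j => match j with
              | WalkingParallelFamily.zero => f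
              | WalkingParallelFamily.one => f
            naturality := by
              rintro _ _ (_ | o)
              · rename_i j
                rcases j with _ | _
                · exact (congrArg (· ≫ f) (F.map_id Y)).trans
                    ((Category.id_comp _).trans (Category.comp_id _).symm)
                · exact (congrArg (· ≫ f) (F.map_id Y)).trans
                    ((Category.id_comp _).trans (Category.comp_id _).symm)
              · exact (hf' o).trans (Category.comp_id _).symm } }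
    exact ⟨hF.desc s, hF.fac s WalkingParallelFamily.one⟩
  · refine hF.hom_ext ?_
    rintro (_ | _)
    · have e : (F.mapCocone (cotr π h.w)).ι.app WalkingParallelFamily.zero = F.map π := by
        change F.map ((cotr π h.w).ι.app WalkingParallelFamily.zero) = F.map π
        congr 1
        exact ((cotr π h.w).app_one none).symm.trans (Category.id_comp _)
      rw [e]
      exact H
    · exact H

end IsOrb

theorem exists_isOrb [HasColimitsOfSize.{0, 0} C] {ι : Type} {Y : C} (ρ : ι → (Y ⟶ Y)) :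
    ∃ (Q : C) (π : Y ⟶ Q), IsOrb ρ π :=
  ⟨_, _, IsOrb.of_isColimit (t := colimit.cocone (parallelFamily (IsOrb.fam ρ)))
    (colimit.isColimit _)⟩

end general

section monoidal

open Vale.Agent.P251.H Vale.Agent.P251.H.StabInput

variable {M : Type u} [Category.{v} M] [MonoidalCategory M] [SymmetricCategory M]
    [MonoidalClosed M]

variable {ι : Type} {Y Q : M} {ρ : ι → (Y ⟶ Y)} {π : Y ⟶ Q}

omit [SymmetricCategory M] in
theorem IsOrb.whiskerLeft (h : IsOrb ρ π) (B : M) : IsOrb (fun i => B ◁ ρ i) (B ◁ π) :=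
  h.map (tensorLeft B)

theorem IsOrb.whiskerRight (h : IsOrb ρ π) (B : M) : IsOrb (fun i => ρ i ▷ B) (π ▷ B) := by
  have h1 := ((h.whiskerLeft B).iso_comp (ρ' := fun i => ρ i ▷ B) (β_ Y B)
    (fun i => BraidedCategory.braiding_naturality_left _ _)).comp_iso (β_ Q B).symm
  have e : ((β_ Y B).hom ≫ B ◁ π) ≫ (β_ Q B).symm.hom = π ▷ B := by
    rw [← BraidedCategory.braiding_naturality_left, Category.assoc, Iso.symm_hom, Iso.hom_inv_id,
      Category.comp_id]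
  rwa [e] at h1

/-- orbits of a tensor product -/
theorem IsOrb.tensor (h : IsOrb ρ π) {ι' : Type} {Y' Q' : M} {ρ' : ι' → (Y' ⟶ Y')}
    {π' : Y' ⟶ Q'} (h' : IsOrb ρ' π') :
    IsOrb (Sum.elim (fun i => ρ i ▷ Y') (fun j => Y ◁ ρ' j)) (π ⊗ₘ π') := by
  rw [tensorHom_def]
  exact (h.whiskerRight Y').trans (fun j => whisker_exchange _ _) (h'.whiskerLeft Q)

variable [HasZeroMorphisms M] [HasColimitsOfSize.{0, 0} M] [StabInput M]

/-- Invariant homotopies descend to the orbits. -/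
theorem IsOrb.mHtpy (h : IsOrb ρ π) {Z : M} (H : Y ⊗ I M ⟶ Z) (hH : ∀ i, ρ i ▷ I M ≫ H = H)
    {u₀ u₁ : Q ⟶ Z} (h₀ : inc 0 Y ≫ H = π ≫ u₀) (h₁ : inc 1 Y ≫ H = π ≫ u₁) : MHtpy u₀ u₁ := by
  obtain ⟨K, hK⟩ := (h.whiskerRight (I M)).desc H hH
  exact ⟨K, h.ext (by rw [← inc_naturality_assoc, hK, h₀]),
    h.ext (by rw [← inc_naturality_assoc, hK, h₁])⟩

/-- The orbits of an equivariant pushout form a pushout. -/
theorem isPushout_orb {C : Type u'} [Category.{v'} C] {A B X P A' B' X' P' : C}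
    {i : A ⟶ B} {f : A ⟶ X} {k : B ⟶ P} {l : X ⟶ P} (H : IsPushout i f k l)
    {a : ι → (A ⟶ A)} {b : ι → (B ⟶ B)} {x : ι → (X ⟶ X)} {p : ι → (P ⟶ P)}
    (hk : ∀ g, b g ≫ k = k ≫ p g) (hl : ∀ g, x g ≫ l = l ≫ p g)
    {πA : A ⟶ A'} {πB : B ⟶ B'} {πX : X ⟶ X'} {πP : P ⟶ P'}
    (hA : IsOrb a πA) (hB : IsOrb b πB) (hX : IsOrb x πX) (hP : IsOrb p πP)
    {i' : A' ⟶ B'} {f' : A' ⟶ X'} {k' : B' ⟶ P'} {l' : X' ⟶ P'}
    (wi : πA ≫ i' = i ≫ πB) (wf : πA ≫ f' = f ≫ πX) (wk : πB ≫ k' = k ≫ πP)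
    (wl : πX ≫ l' = l ≫ πP) : IsPushout i' f' k' l' := by
  have w : i' ≫ k' = f' ≫ l' := hA.ext (by
    rw [reassoc_of% wi, wk, reassoc_of% wf, wl, H.w_assoc])
  have key : ∀ s : PushoutCocone i' f', ∃ m : P' ⟶ s.pt, k' ≫ m = s.inl ∧ l' ≫ m = s.inr := by
    intro s
    have w' : i ≫ πB ≫ s.inl = f ≫ πX ≫ s.inr := by
      rw [← reassoc_of% wi, ← reassoc_of% wf, s.condition]
    obtain ⟨m, hm⟩ := hP.desc (H.desc _ _ w') (fun g => by
      apply H.hom_ext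
      · rw [← reassoc_of% (hk g), H.inl_desc, reassoc_of% (hB.w g)]
      · rw [← reassoc_of% (hl g), H.inr_desc, reassoc_of% (hX.w g)])
    exact ⟨m, hB.ext (by rw [reassoc_of% wk, hm, H.inl_desc]),
      hX.ext (by rw [reassoc_of% wl, hm, H.inr_desc])⟩
  choose m hm1 hm2 using key
  refine ⟨⟨w⟩, ⟨PushoutCocone.IsColimit.mk w m hm1 hm2 (fun s m' h1 h2 => hP.ext ?_)⟩⟩
  apply H.hom_ext
  · rw [← reassoc_of% wk, ← reassoc_of% wk, h1, hm1]
  · rw [← reassoc_of% wl, ← reassoc_of% wl, h2, hm2]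

/-- The orbits of an equivariant mapping cone form a mapping cone. -/
theorem isCone_orb {X Y C X' Y' C' : M} {f : X ⟶ Y} {k : X ⊗ CI M ⟶ C} {i : Y ⟶ C}
    (H : IsPushout (coneBase X) f k i) {x : ι → (X ⟶ X)} {y : ι → (Y ⟶ Y)} {c : ι → (C ⟶ C)}
    (hk : ∀ g, x g ▷ CI M ≫ k = k ≫ c g) (hi : ∀ g, y g ≫ i = i ≫ c g)
    {πX : X ⟶ X'} {πY : Y ⟶ Y'} {πC : C ⟶ C'}
    (hX : IsOrb x πX) (hY : IsOrb y πY) (hC : IsOrb c πC) {f' : X' ⟶ Y'} {i' : Y' ⟶ C'}
    (wf : πX ≫ f' = f ≫ πY) (wi : πY ≫ i' = i ≫ πC) :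
    ∃ (k' : X' ⊗ CI M ⟶ C') (q' : C' ⟶ X' ⊗ S M), IsCone f' k' i' q' := by
  obtain ⟨k', hk'⟩ := (hX.whiskerRight (CI M)).exists_map hC.w k hk
  have po : IsPushout (coneBase X') f' k' i' :=
    isPushout_orb H hk hi hX (hX.whiskerRight (CI M)) hY hC (coneBase_naturality πX).symm wf hk' wi
  have w : coneBase X' ≫ X' ◁ collM = f' ≫ (0 : Y' ⟶ X' ⊗ S M) := by
    rw [coneBase_collM, comp_zero]
  exact ⟨k', po.desc _ _ w, po, po.inl_desc _ _ _, po.inr_desc _ _ _⟩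

end monoidal

end Vale.Agent.P257.F
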