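import Vale.Agent.P257.M.Chain

/-!
# P257, row COP: the tensor product of commutative monoids is their coproduct

`cten C B` with `cinl`, `cinr`, `cdsc`, `cten_ext`; functoriality `cmap`, `cwl`, `cwr`; `C ⊗ -`
preserves pushouts, cell attachments and chains of cell attachments.
-/

open CategoryTheory MonoidalCategory Limits MonObj

namespace Vale.Agent.P257.M

open Vale.Agent.P251.G Vale.Agent.P251.H Vale.Agent.P251.H.LP Vale.Agent.P251.H.StabInput
open Vale.Agent.P257.A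

universe v u

section cop

variable {M : Type u} [Category.{v} M] [MonoidalCategory M] [SymmetricCategory M]

instance isMonHom_one (B : M) [MonObj B] : IsMonHom η[B] where
  one_hom := Category.id_comp _
  mul_hom := by
    rw [MonObj.one_mul_hom]
    rfl

instance isMonHom_mul (B : M) [MonObj B] [IsCommMonObj B] : IsMonHom μ[B] where
  one_hom := by
    rw [tensorObj.one_def, Category.assoc, MonObj.one_mul_hom, Iso.inv_hom_id_assoc]
  mul_hom := by rw [tensorObj.mul_def, Category.assoc, MonObj.mul_mul_mul_comm]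

/-- the tensor product of commutative monoids -/
@[reducible] def cten (C B : CommMon M) : CommMon M := { X := C.X ⊗ B.X }

variable {A A' B B' B'' C C' C'' R R' : CommMon M}

/-- the inclusion of the left factor -/
def cinl (C B : CommMon M) : C ⟶ cten C B := mkAh ((ρ_ C.X).inv ≫ C.X ◁ η)

/-- the inclusion of the right factor -/
def cinr (C B : CommMon M) : B ⟶ cten C B := mkAh ((λ_ B.X).inv ≫ η ▷ B.X)

/-- the map out of a tensor product -/
def cdsc (f : C ⟶ R) (g : B ⟶ R) : cten C B ⟶ R := mkAh ((ah f ⊗ₘ ah g) ≫ μ)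

/-- the tensor product of two maps -/
def cmap (f : C ⟶ C') (g : B ⟶ B') : cten C B ⟶ cten C' B' := mkAh (ah f ⊗ₘ ah g)

variable (C) in
/-- `C ⊗ g` -/
def cwl (g : B ⟶ B') : cten C B ⟶ cten C B' := mkAh (C.X ◁ ah g)

/-- `f ⊗ B` -/
def cwr (f : C ⟶ C') (B : CommMon M) : cten C B ⟶ cten C' B := mkAh (ah f ▷ B.X)

theorem ah_cinl : ah (cinl C B) = (ρ_ C.X).inv ≫ C.X ◁ η := rfl

theorem ah_cinr : ah (cinr C B) = (λ_ B.X).inv ≫ η ▷ B.X := rfl

theorem ah_cdsc (f : C ⟶ R) (g : B ⟶ R) : ah (cdsc f g) = (ah f ⊗ₘ ah g) ≫ μ := rfl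

@[simp] theorem ah_cmap (f : C ⟶ C') (g : B ⟶ B') : ah (cmap f g) = ah f ⊗ₘ ah g := rfl

@[simp] theorem ah_cwl (g : B ⟶ B') : ah (cwl C g) = C.X ◁ ah g := rfl

@[simp] theorem ah_cwr (f : C ⟶ C') : ah (cwr f B) = ah f ▷ B.X := rfl

@[reassoc (attr := simp)]
theorem cinl_cdsc (f : C ⟶ R) (g : B ⟶ R) : cinl C B ≫ cdsc f g = f := ah_ext (by
  rw [ah_comp, ah_cinl, ah_cdsc, Category.assoc, ← id_tensorHom, tensorHom_comp_tensorHom_assoc,
    Category.id_comp, IsMonHom.one_hom, MonObj.mul_one_hom, Iso.inv_hom_id_assoc])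

@[reassoc (attr := simp)]
theorem cinr_cdsc (f : C ⟶ R) (g : B ⟶ R) : cinr C B ≫ cdsc f g = g := ah_ext (by
  rw [ah_comp, ah_cinr, ah_cdsc, Category.assoc, ← tensorHom_id, tensorHom_comp_tensorHom_assoc,
    Category.id_comp, IsMonHom.one_hom, MonObj.one_mul_hom, Iso.inv_hom_id_assoc])

@[reassoc]
theorem cdsc_comp (f : C ⟶ R) (g : B ⟶ R) (h : R ⟶ R') :
    cdsc f g ≫ h = cdsc (f ≫ h) (g ≫ h) := ah_ext (by
  rw [ah_comp, ah_cdsc, ah_cdsc, Category.assoc, IsMonHom.mul_hom, tensorHom_comp_tensorHom_assoc,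
    ah_comp, ah_comp])

theorem cdsc_cinl_cinr : cdsc (cinl C B) (cinr C B) = 𝟙 _ := ah_ext (by
  rw [ah_cdsc, ah_cinl, ah_cinr, tensorObj.mul_def, ← tensorHom_comp_tensorHom_assoc,
    ← id_tensorHom C.X η, ← tensorHom_id η, tensorμ_natural_assoc, tensorHom_comp_tensorHom,
    id_tensorHom, tensorHom_id, MonObj.mul_one, MonObj.one_mul, ah_id, tensorμ,
    braiding_tensorUnit_left]
  monoidal)

theorem cten_ext {f g : cten C B ⟶ R} (h1 : cinl C B ≫ f = cinl C B ≫ g)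
    (h2 : cinr C B ≫ f = cinr C B ≫ g) : f = g := by
  rw [← Category.id_comp f, ← Category.id_comp g, ← cdsc_cinl_cinr, cdsc_comp, cdsc_comp, h1, h2]

@[reassoc (attr := simp)]
theorem cinl_cmap (f : C ⟶ C') (g : B ⟶ B') : cinl C B ≫ cmap f g = f ≫ cinl C' B' := ah_ext (by
  rw [ah_comp, ah_comp, ah_cinl, ah_cinl, ah_cmap, Category.assoc, tensorHom_def',
    ← MonoidalCategory.whiskerLeft_comp_assoc, IsMonHom.one_hom, whisker_exchange,
    rightUnitor_inv_naturality_assoc])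

@[reassoc (attr := simp)]
theorem cinr_cmap (f : C ⟶ C') (g : B ⟶ B') : cinr C B ≫ cmap f g = g ≫ cinr C' B' := ah_ext (by
  rw [ah_comp, ah_comp, ah_cinr, ah_cinr, ah_cmap, Category.assoc, tensorHom_def,
    ← comp_whiskerRight_assoc, IsMonHom.one_hom, ← whisker_exchange,
    leftUnitor_inv_naturality_assoc])

theorem cwl_eq (g : B ⟶ B') : cwl C g = cmap (𝟙 C) g := ah_ext (id_tensorHom _ _).symm

theorem cwr_eq (f : C ⟶ C') : cwr f B = cmap f (𝟙 B) := ah_ext (tensorHom_id _ _).symm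

@[reassoc (attr := simp)]
theorem cinl_cwl (g : B ⟶ B') : cinl C B ≫ cwl C g = cinl C B' := by
  rw [cwl_eq, cinl_cmap, Category.id_comp]

@[reassoc (attr := simp)]
theorem cinr_cwl (g : B ⟶ B') : cinr C B ≫ cwl C g = g ≫ cinr C B' := by
  rw [cwl_eq, cinr_cmap]

@[reassoc (attr := simp)]
theorem cinl_cwr (f : C ⟶ C') : cinl C B ≫ cwr f B = f ≫ cinl C' B := by
  rw [cwr_eq, cinl_cmap]

@[reassoc (attr := simp)]
theorem cinr_cwr (f : C ⟶ C') : cinr C B ≫ cwr f B = cinr C' B := by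
  rw [cwr_eq, cinr_cmap, Category.id_comp]

@[simp] theorem cwl_id : cwl C (𝟙 B) = 𝟙 _ := ah_ext (MonoidalCategory.whiskerLeft_id _ _)

@[simp] theorem cwr_id : cwr (𝟙 C) B = 𝟙 _ := ah_ext (id_whiskerRight _ _)

@[reassoc]
theorem cwl_comp (g : B ⟶ B') (g' : B' ⟶ B'') : cwl C (g ≫ g') = cwl C g ≫ cwl C g' :=
  ah_ext (MonoidalCategory.whiskerLeft_comp _ _ _)

@[reassoc]
theorem cwr_comp (f : C ⟶ C') (f' : C' ⟶ C'') : cwr (f ≫ f') B = cwr f B ≫ cwr f' B :=
  ah_ext (comp_whiskerRight _ _ _)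

@[reassoc]
theorem cwl_cwr (f : C ⟶ C') (g : B ⟶ B') : cwl C g ≫ cwr f B' = cwr f B ≫ cwl C' g :=
  ah_ext (whisker_exchange _ _)

@[reassoc (attr := simp)]
theorem cwl_cdsc (g : B ⟶ B') (f : C ⟶ R) (h : B' ⟶ R) : cwl C g ≫ cdsc f h = cdsc f (g ≫ h) :=
  cten_ext (by simp) (by simp)

@[reassoc (attr := simp)]
theorem cwr_cdsc (g : C ⟶ C') (f : C' ⟶ R) (h : B ⟶ R) : cwr g B ≫ cdsc f h = cdsc (g ≫ f) h :=
  cten_ext (by simp) (by simp)

instance (g : B ⟶ B') [IsIso g] : IsIso (cwl C g) :=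
  ⟨cwl C (inv g), by simp [← cwl_comp], by simp [← cwl_comp]⟩

instance (f : C ⟶ C') [IsIso f] : IsIso (cwr f B) :=
  ⟨cwr (inv f) B, by simp [← cwr_comp], by simp [← cwr_comp]⟩

instance : IsIso (cinr (CommMon.trivial M) B) :=
  ⟨cdsc default (𝟙 B), by simp, cten_ext (Subsingleton.elim _ _) (by simp)⟩

instance : IsIso (cinl C (CommMon.trivial M)) :=
  ⟨cdsc (𝟙 C) default, by simp, cten_ext (by simp) (Subsingleton.elim _ _)⟩

variable (C) in
/-- `C ⊗ B'` is the base change of `B'` along `B ⟶ C ⊗ B` -/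
theorem isPushout_cinr (g : B ⟶ B') : IsPushout g (cinr C B) (cinr C B') (cwl C g) :=
  ⟨⟨(cinr_cwl g).symm⟩, ⟨PushoutCocone.IsColimit.mk _
    (fun s => cdsc (cinl C B ≫ s.inr) s.inl) (fun _ => cinr_cdsc _ _)
    (fun s => cten_ext (by simp) (by simp [s.condition]))
    (fun s m h1 h2 => cten_ext (by simp [← h2]) (by simp [← h1]))⟩⟩

variable (B) in
/-- `C' ⊗ B` is the base change of `C'` along `C ⟶ C ⊗ B` -/
theorem isPushout_cinl (f : C ⟶ C') : IsPushout f (cinl C B) (cinl C' B) (cwr f B) :=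
  ⟨⟨(cinl_cwr f).symm⟩, ⟨PushoutCocone.IsColimit.mk _
    (fun s => cdsc s.inl (cinr C B ≫ s.inr)) (fun _ => cinl_cdsc _ _)
    (fun s => cten_ext (by simp [s.condition]) (by simp))
    (fun s m h1 h2 => cten_ext (by simp [← h1]) (by simp [← h2]))⟩⟩

/-- the tensor product is the pushout over the trivial monoid -/
theorem isPushout_cten (a : CommMon.trivial M ⟶ C) (b : CommMon.trivial M ⟶ B) :
    IsPushout a b (cinl C B) (cinr C B) :=
  ⟨⟨Subsingleton.elim _ _⟩, ⟨PushoutCocone.IsColimit.mk _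
    (fun s => cdsc s.inl s.inr) (fun _ => cinl_cdsc _ _) (fun _ => cinr_cdsc _ _)
    (fun s m h1 h2 => cten_ext (by simp [← h1]) (by simp [← h2]))⟩⟩

theorem isPushout_cwl_cwr (f : C ⟶ C') (g : B ⟶ B') :
    IsPushout (cwl C g) (cwr f B) (cwr f B') (cwl C' g) :=
  IsPushout.of_top (by rw [cinr_cwr, cinr_cwr]; exact isPushout_cinr C' g) (cwl_cwr f g)
    (isPushout_cinr C g)

variable (C) in
/-- `C ⊗ -` preserves pushouts -/
theorem isPushout_cwl {f : A ⟶ B} {g : A ⟶ A'} {h : B ⟶ B'} {k : A' ⟶ B'}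
    (H : IsPushout f g h k) : IsPushout (cwl C f) (cwl C g) (cwl C h) (cwl C k) :=
  IsPushout.of_top (by
    rw [cinr_cwl, cinr_cwl]
    exact H.paste_vert (isPushout_cinr C k)) (by rw [← cwl_comp, ← cwl_comp, H.w])
    (isPushout_cinr C f)

variable (C) in
theorem _root_.Vale.Agent.P257.A.IsAtt.cwl {X Y : M} {c : X ⟶ Y} {x : X ⟶ B.X} {i : B ⟶ B'}
    {χ : Y ⟶ B'.X} (h : IsAtt c x i χ) :
    IsAtt c (x ≫ ah (cinr C B)) (cwl C i) (χ ≫ ah (cinr C B')) :=
  h.of_isPushout (isPushout_cinr C i)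

variable (C) in
theorem _root_.Vale.Agent.P257.A.IsAtt.cwr {X Y : M} {c : X ⟶ Y} {x : X ⟶ B.X} {i : B ⟶ B'}
    {χ : Y ⟶ B'.X} (h : IsAtt c x i χ) :
    IsAtt c (x ≫ ah (cinl B C)) (cwr i C) (χ ≫ ah (cinl B' C)) :=
  h.of_isPushout (isPushout_cinl C i)

end cop

variable {M : Type u} [Category.{v} M] [MonoidalCategory M] [SymmetricCategory M]
    [MonoidalClosed M] [HasZeroMorphisms M] [HasColimitsOfSize.{0, 0} M] [StabInput M]
    {ok : ℕ → M → Prop} {T0 A : CommMon M} {sp0 : A ⟶ T0}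

/-- the tensor product of a cell attachment with an algebra -/
@[reducible] def TStep.tensor (C : CommMon M) {T T' : CommMon M} (s : TStep T T') :
    TStep (cten C T) (cten C T') where
  X := s.X
  v := s.v ≫ ah (cinr C T)
  i := cwl C s.i
  χ := s.χ ≫ ah (cinr C T')
  att := s.att.cwl C

/-- the tensor product of a chain with an algebra -/
def TC.tensor (C : CommMon M) : {i : ℕ} → {T : CommMon M} → TC ok T0 i T →
    TC ok (cten C T0) i (cten C T)
  | _, _, .nil => .nil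
  | _, _, .cons c s h => .cons (c.tensor C) (s.tensor C) h

theorem TC.i0_tensor (C : CommMon M) {i : ℕ} {T : CommMon M} (c : TC ok T0 i T) :
    (c.tensor C).i0 = cwl C c.i0 := by
  induction c with
  | nil => exact cwl_id.symm
  | cons c s h ih => exact (congrArg (· ≫ cwl C s.i) ih).trans (cwl_comp _ _).symm

theorem TC.All.tensor (C : CommMon M)
    {Q : ∀ (_ : ℕ) (T T' : CommMon M), (T0 ⟶ T) → TStep T T' → Prop}
    {Q' : ∀ (_ : ℕ) (T T' : CommMon M), (cten C T0 ⟶ T) → TStep T T' → Prop}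
    (H : ∀ i T T' f s, Q i T T' f s → Q' i _ _ (cwl C f) (s.tensor C)) {i : ℕ} {T : CommMon M}
    {c : TC ok T0 i T} (h : c.All Q) : (c.tensor C).All Q' := by
  induction c with
  | nil => trivial
  | cons c s _ ih => exact ⟨ih h.1, (c.i0_tensor C).symm ▸ H _ _ _ _ _ h.2⟩

/-- the tensor product of a lifted cell with an algebra -/
@[reducible] def RStep.tensor (C : CommMon M) {T T' R R' : CommMon M} {s : TStep T T'}
    {sp : R ⟶ T} {sp' : R' ⟶ T'} (r : RStep s sp sp') :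
    RStep (s.tensor C) (cwl C sp) (cwl C sp') where
  v := r.v ≫ ah (cinr C R)
  i := cwl C r.i
  χ := r.χ ≫ ah (cinr C R')
  att := r.att.cwl C
  hv := by rw [Category.assoc, ← ah_comp, cinr_cwl, ah_comp, reassoc_of% r.hv]
  hi := by rw [← cwl_comp, r.hi, cwl_comp]
  hχ := by rw [Category.assoc, ← ah_comp, cinr_cwl, ah_comp, reassoc_of% r.hχ]

/-- the tensor product of a lifted chain with an algebra -/
def RC.tensor (C : CommMon M) : {i : ℕ} → {T : CommMon M} → {tc : TC ok T0 i T} →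
    {R : CommMon M} → {sp : R ⟶ T} → RC A sp0 tc R sp →
      RC (cten C A) (cwl C sp0) (tc.tensor C) (cten C R) (cwl C sp)
  | _, _, _, _, _, .nil => .nil
  | _, _, _, _, _, .cons c s h r => .cons (c.tensor C) (s.tensor C) h (r.tensor C)

theorem RC.i0_tensor (C : CommMon M) {i : ℕ} {T : CommMon M} {tc : TC ok T0 i T} {R : CommMon M}
    {sp : R ⟶ T} (c : RC A sp0 tc R sp) : (c.tensor C).i0 = cwl C c.i0 := by
  induction c with
  | nil => exact cwl_id.symm
  | cons c s h r ih => exact (congrArg (· ≫ cwl C r.i) ih).trans (cwl_comp _ _).symm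

theorem Ext.cwl (C : CommMon M) {P : M → Prop} {n : ℕ} {B B' : CommMon M} {f : B ⟶ B'}
    (h : Ext P n f) : Ext P n (cwl C f) := h.of_isPushout (isPushout_cinr C f)

theorem Ext.cwr (C : CommMon M) {P : M → Prop} {n : ℕ} {B B' : CommMon M} {f : B ⟶ B'}
    (h : Ext P n f) : Ext P n (cwr f C) := h.of_isPushout (isPushout_cinl C f)

end Vale.Agent.P257.M
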