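import Vale.Agent.P257.F.Null

/-!
# P257, block F: tensoring with spaces, finite sets and their orbits

`jpt p Y : Y ⟶ Y ⊗ j P` for a point `p` of `P`, `jpr`, the coproduct property of `Y ⊗ j (dsc Z)`,
the mapping cone `Y ⊗ j (TZ Z)`, and the orbits of `Y ⊗ j (dsc Z)` as a retract of a coproduct of
orbits under stabilizers.
-/

open CategoryTheory MonoidalCategory Limits Topology OnePoint

namespace Vale.Agent.P257.F

open Vale.Agent.P251.G Vale.Agent.P251.G.LC Vale.Agent.P251.H Vale.Agent.P251.H.LP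
open Vale.Agent.P251.H.StabInput
open Functor.LaxMonoidal Functor.OplaxMonoidal

universe v u

variable {M : Type u} [Category.{v} M] [MonoidalCategory M] [SymmetricCategory M]
    [MonoidalClosed M] [HasZeroMorphisms M] [HasColimitsOfSize.{0, 0} M] [StabInput M]

section jpt

variable {P P' : LC}

/-- the morphism `Y ⟶ Y ⊗ j P` given by a point of `P` -/
def jpt (p : 𝟙_ LC ⟶ P) (Y : M) : Y ⟶ Y ⊗ (J M).obj P :=
  (ρ_ Y).inv ≫ Y ◁ (ε (J M) ≫ (J M).map p)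

/-- the morphism `Y ⊗ j P ⟶ Y` given by a map from `P` to the point -/
def jpr (q : P ⟶ 𝟙_ LC) (Y : M) : Y ⊗ (J M).obj P ⟶ Y :=
  Y ◁ ((J M).map q ≫ η (J M)) ≫ (ρ_ Y).hom

theorem coneBase_eq_jpt (Y : M) : StabInput.coneBase Y = jpt zeroHH Y := rfl

theorem inc_eq_jpt (t : unitInterval) (Y : M) : inc t Y = jpt (point (X := II) t) Y := rfl

@[reassoc]
theorem jpt_map (p : 𝟙_ LC ⟶ P) (f : P ⟶ P') (Y : M) :
    jpt p Y ≫ Y ◁ (J M).map f = jpt (p ≫ f) Y := by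
  rw [jpt, jpt, Category.assoc, ← MonoidalCategory.whiskerLeft_comp, Category.assoc,
    ← Functor.map_comp]

@[reassoc]
theorem map_jpr (f : P ⟶ P') (q : P' ⟶ 𝟙_ LC) (Y : M) :
    Y ◁ (J M).map f ≫ jpr q Y = jpr (f ≫ q) Y := by
  rw [jpr, jpr, ← MonoidalCategory.whiskerLeft_comp_assoc, ← Functor.map_comp_assoc]

@[reassoc]
theorem jpt_nat (p : 𝟙_ LC ⟶ P) {Y Y' : M} (f : Y ⟶ Y') :
    jpt p Y ≫ f ▷ (J M).obj P = f ≫ jpt p Y' := by
  rw [jpt, jpt, Category.assoc, whisker_exchange, rightUnitor_inv_naturality_assoc]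

@[reassoc]
theorem jpr_nat (q : P ⟶ 𝟙_ LC) {Y Y' : M} (f : Y ⟶ Y') :
    f ▷ (J M).obj P ≫ jpr q Y' = jpr q Y ≫ f := by
  rw [jpr, jpr, ← whisker_exchange_assoc, Category.assoc, rightUnitor_naturality]

@[reassoc]
theorem jpt_tensorHom (p : 𝟙_ LC ⟶ P) (g : P ⟶ P') {Y Y' : M} (f : Y ⟶ Y') :
    jpt p Y ≫ (f ⊗ₘ (J M).map g) = f ≫ jpt (p ≫ g) Y' := by
  rw [tensorHom_def, jpt_nat_assoc, jpt_map]

@[reassoc]
theorem tensorHom_jpr (g : P ⟶ P') (q : P' ⟶ 𝟙_ LC) {Y Y' : M} (f : Y ⟶ Y') :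
    (f ⊗ₘ (J M).map g) ≫ jpr q Y' = jpr (g ≫ q) Y ≫ f := by
  rw [tensorHom_def', Category.assoc, jpr_nat, map_jpr_assoc]

@[reassoc]
theorem jpr_jpt (q : P ⟶ 𝟙_ LC) (p : 𝟙_ LC ⟶ P') (Y : M) :
    jpr q Y ≫ jpt p Y = Y ◁ (J M).map (q ≫ p) := by
  rw [jpr, jpt, Category.assoc, Iso.hom_inv_id_assoc, ← MonoidalCategory.whiskerLeft_comp,
    Category.assoc, Functor.Monoidal.η_ε_assoc, Functor.map_comp]

@[reassoc]
theorem jpt_jpr_id (Y : M) : jpt (𝟙 (𝟙_ LC)) Y ≫ jpr (𝟙 (𝟙_ LC)) Y = 𝟙 Y := by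
  rw [jpr, jpt, Category.assoc, ← MonoidalCategory.whiskerLeft_comp_assoc]
  simp

@[reassoc]
theorem jpr_jpt_id (Y : M) : jpr (𝟙 (𝟙_ LC)) Y ≫ jpt (𝟙 (𝟙_ LC)) Y = 𝟙 _ := by
  rw [jpr_jpt]
  simp

instance (Y : M) : IsIso (jpt (𝟙 (𝟙_ LC)) Y) := ⟨_, jpt_jpr_id Y, jpr_jpt_id Y⟩

instance (Y : M) : IsIso (jpr (𝟙 (𝟙_ LC)) Y) := ⟨_, jpr_jpt_id Y, jpt_jpr_id Y⟩

@[reassoc]
theorem jpt_jpr (p : 𝟙_ LC ⟶ P) (q : P ⟶ 𝟙_ LC) (h : p ≫ q = 𝟙 _) (Y : M) :
    jpt p Y ≫ jpr q Y = 𝟙 Y := by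
  rw [← Category.comp_id q, ← map_jpr, jpt_map_assoc, h, jpt_jpr_id]

@[reassoc]
theorem tensorHom_J_comm {Y Y' : M} (f : Y ⟶ Y') {R R' : LC} {g : P ⟶ R} {a : P ⟶ P'}
    {b : R ⟶ R'} {g' : P' ⟶ R'} (h : g ≫ b = a ≫ g') :
    (f ⊗ₘ (J M).map g) ≫ Y' ◁ (J M).map b = Y ◁ (J M).map a ≫ (f ⊗ₘ (J M).map g') := by
  rw [← id_tensorHom, ← id_tensorHom, tensorHom_comp_tensorHom, tensorHom_comp_tensorHom,
    ← Functor.map_comp, ← Functor.map_comp, h, Category.comp_id, Category.id_comp]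

theorem jpt_zero (Y : M) : jpt (0 : 𝟙_ LC ⟶ P) Y = 0 := by
  rw [jpt, J_map_zero, comp_zero, whiskerLeft_zero', comp_zero]

/-- `(Y ⊗ j P) ⊗ j P' ≅ Y ⊗ j (P ⊗ P')` -/
noncomputable def jmul (Y : M) (P P' : LC) :
    (Y ⊗ (J M).obj P) ⊗ (J M).obj P' ≅ Y ⊗ (J M).obj (P ⊗ P') :=
  α_ _ _ _ ≪≫ whiskerLeftIso Y (Functor.Monoidal.μIso (J M) P P')

theorem jmul_hom (Y : M) (P P' : LC) :
    (jmul Y P P').hom = (α_ _ _ _).hom ≫ Y ◁ μ (J M) P P' := rfl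

@[reassoc]
theorem jmul_nat {Y Y' : M} (f : Y ⟶ Y') {R R' : LC} (g : P ⟶ R) (h : P' ⟶ R') :
    ((f ⊗ₘ (J M).map g) ⊗ₘ (J M).map h) ≫ (jmul Y' R R').hom =
      (jmul Y P P').hom ≫ (f ⊗ₘ (J M).map (g ⊗ₘ h)) := by
  rw [jmul_hom, jmul_hom, associator_naturality_assoc, Category.assoc, ← id_tensorHom,
    ← id_tensorHom, tensorHom_comp_tensorHom, tensorHom_comp_tensorHom, μ_natural,
    Category.comp_id, Category.id_comp]

@[reassoc]
theorem jmul_nat_left {Y : M} {R : LC} (g : P ⟶ R) (P' : LC) :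
    (Y ◁ (J M).map g) ▷ (J M).obj P' ≫ (jmul Y R P').hom =
      (jmul Y P P').hom ≫ Y ◁ (J M).map (g ▷ P') := by
  have := jmul_nat (𝟙 Y) g (𝟙 P')
  simpa only [CategoryTheory.Functor.map_id, tensorHom_id, id_tensorHom] using this

@[reassoc]
theorem jmul_nat_right {Y : M} (P : LC) {R' : LC} (h : P' ⟶ R') :
    (Y ⊗ (J M).obj P) ◁ (J M).map h ≫ (jmul Y P R').hom =
      (jmul Y P P').hom ≫ Y ◁ (J M).map (P ◁ h) := by
  have := jmul_nat (𝟙 Y) (𝟙 P) h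
  simpa only [CategoryTheory.Functor.map_id, tensorHom_id, id_tensorHom,
    id_whiskerRight, MonoidalCategory.whiskerLeft_id] using this

@[reassoc]
theorem jmul_nat_obj {Y Y' : M} (f : Y ⟶ Y') (P P' : LC) :
    (f ▷ (J M).obj P) ▷ (J M).obj P' ≫ (jmul Y' P P').hom =
      (jmul Y P P').hom ≫ f ▷ (J M).obj (P ⊗ P') := by
  have := jmul_nat f (𝟙 P) (𝟙 P')
  simpa only [CategoryTheory.Functor.map_id, tensorHom_id, id_tensorHom,
    id_whiskerRight, MonoidalCategory.whiskerLeft_id] using this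

@[reassoc]
theorem jpt_jmul (p' : 𝟙_ LC ⟶ P') (Y : M) (P : LC) :
    jpt p' (Y ⊗ (J M).obj P) ≫ (jmul Y P P').hom =
      Y ◁ (J M).map ((ρ_ P).inv ≫ P ◁ p') := by
  have h : ∀ X : M, (ρ_ (Y ⊗ X)).inv ≫ (α_ Y X (𝟙_ M)).hom = Y ◁ (ρ_ X).inv := fun X => by simp
  rw [jmul_hom, jpt, Category.assoc, associator_naturality_right_assoc, reassoc_of% h,
    ← MonoidalCategory.whiskerLeft_comp, ← MonoidalCategory.whiskerLeft_comp,
    MonoidalCategory.whiskerLeft_comp ((J M).obj P), Category.assoc, μ_natural_right,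
    Functor.map_comp, right_unitality_inv_assoc]

@[reassoc]
theorem jpt_jpt_jmul (p : 𝟙_ LC ⟶ P) (p' : 𝟙_ LC ⟶ P') (Y : M) :
    jpt p Y ≫ jpt p' (Y ⊗ (J M).obj P) ≫ (jmul Y P P').hom =
      jpt ((λ_ _).inv ≫ (p ⊗ₘ p')) Y := by
  rw [jpt_jmul, jpt_map, rightUnitor_inv_naturality_assoc, ← tensorHom_def, unitors_inv_equal]

/-- tensoring with the mapping cone of a map of spaces gives a mapping cone -/
theorem isPushout_jcone (Y : M) {X X' C : LC} {f : X ⟶ X'} {k : X ⊗ HH ⟶ C} {i : X' ⟶ C}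
    (h : IsPushout (LC.coneBase X) f k i) :
    IsPushout (StabInput.coneBase (Y ⊗ (J M).obj X)) (Y ◁ (J M).map f)
      ((jmul Y X HH).hom ≫ Y ◁ (J M).map k) (Y ◁ (J M).map i) := by
  refine (isPushout_tensor Y (injective_coneBase X) h).of_iso (Iso.refl _) (jmul Y X HH).symm
    (Iso.refl _) (Iso.refl _) ?_ ?_ ?_ ?_
  · rw [Iso.refl_hom, Category.id_comp, Iso.symm_hom, Iso.comp_inv_eq, coneBase_eq_jpt, jpt_jmul]
    rfl
  · simp
  · simp
  · simp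

theorem isPushout_jTZ (Y : M) (Z : Type) [Finite Z] :
    IsPushout (StabInput.coneBase (Y ⊗ (J M).obj (dsc Z))) (jpr (toPt (dsc Z)) Y)
      ((jmul Y (dsc Z) HH).hom ≫ Y ◁ (J M).map (tin Z)) (jpt (tpt Z) Y) := by
  refine (isPushout_jcone Y (isPushout_TZ Z)).of_iso (Iso.refl _) (Iso.refl _)
    (asIso (jpr (𝟙 (𝟙_ LC)) Y)) (Iso.refl _) ?_ ?_ ?_ ?_
  · simp
  · rw [asIso_hom, map_jpr, Category.comp_id, Iso.refl_hom, Category.id_comp]
  · simp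
  · rw [asIso_hom, jpr_jpt, Category.id_comp, Iso.refl_hom, Category.comp_id]

end jpt

section sum

/-- the coproduct property of `Y ⊗ j (dsc Z)` -/
def DSum (Y : M) (Z : Type) : Prop :=
  (∀ (W : M) (f g : Y ⊗ (J M).obj (dsc Z) ⟶ W),
    (∀ z, jpt (dpt z) Y ≫ f = jpt (dpt z) Y ≫ g) → f = g) ∧
  ∀ (W : M) (f : Z → (Y ⟶ W)), ∃ g : Y ⊗ (J M).obj (dsc Z) ⟶ W, ∀ z, jpt (dpt z) Y ≫ g = f z

theorem isPushout_dsc_option (α : Type) [Finite α] :
    IsPushout (0 : LC.of Empty ⟶ dsc α) (0 : LC.of Empty ⟶ 𝟙_ LC) (dmap Option.some)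
      (dpt (none : Option α)) := by
  refine ⟨⟨by rw [zero_comp, zero_comp]⟩, ⟨PushoutCocone.IsColimit.mk _
    (fun s => ofCpt (X := dsc (Option α)) (fun o => (Dsc.val o).elim
      (app s.inr ((() : Unit) : OnePoint Unit))
      (fun a => app s.inl ((Dsc.mk a : Dsc α) : OnePoint (Dsc α)))) continuous_of_discreteTopology)
    (fun s => LC.hom_ext fun _ => rfl) (fun s => LC.hom_ext fun _ => rfl)
    (fun s m h1 h2 => LC.hom_ext ?_)⟩⟩
  rintro (_ | a)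
  · exact congrArg (fun m => app m ((() : Unit) : OnePoint Unit)) h2
  · exact congrArg (fun m => app m ((Dsc.mk a : Dsc α) : OnePoint (Dsc α))) h1

theorem dSum (Y : M) (Z : Type) [Finite Z] : DSum Y Z := by
  refine Finite.induction_empty_option (P := fun Z => Finite Z → DSum Y Z) ?_ ?_ ?_ Z
    inferInstance
  · intro α β e H hβ
    have : Finite α := Finite.of_equiv β e.symm
    obtain ⟨h1, h2⟩ := H this
    have i1 : Y ◁ (J M).map (dmap e.symm) ≫ Y ◁ (J M).map (dmap e) = 𝟙 _ := by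
      rw [← MonoidalCategory.whiskerLeft_comp, ← Functor.map_comp, ← dmap_comp]
      simp only [Equiv.apply_symm_apply]
      rw [dmap_id, CategoryTheory.Functor.map_id, MonoidalCategory.whiskerLeft_id]
    refine ⟨fun W f g h => ?_, fun W f => ?_⟩
    · rw [← Category.id_comp f, ← Category.id_comp g, ← i1, Category.assoc, Category.assoc]
      congr 1
      refine h1 _ _ _ fun a => ?_
      rw [jpt_map_assoc, jpt_map_assoc, dpt_dmap, h]
    · obtain ⟨g, hg⟩ := h2 W (fun a => f (e a))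
      refine ⟨Y ◁ (J M).map (dmap e.symm) ≫ g, fun b => ?_⟩
      rw [jpt_map_assoc, dpt_dmap, hg, Equiv.apply_symm_apply]
  · intro _
    have hz : IsZero (Y ⊗ (J M).obj (dsc PEmpty)) := by
      rw [IsZero.iff_id_eq_zero]
      have : 𝟙 (dsc PEmpty) = 0 := LC.hom_ext fun x => x.val.elim
      rw [← MonoidalCategory.whiskerLeft_id, ← (J M).map_id, this, J_map_zero, whiskerLeft_zero']
    exact ⟨fun W f g _ => hz.eq_of_src _ _, fun W f => ⟨0, fun z => z.elim⟩⟩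
  · intro α _ H _
    obtain ⟨h1, h2⟩ := H inferInstance
    have po := isPushout_tensor Y (injective_empty _) (isPushout_dsc_option α)
    refine ⟨fun W f g h => po.hom_ext (h1 _ _ _ fun a => ?_) ?_, fun W f => ?_⟩
    · rw [jpt_map_assoc, jpt_map_assoc, dpt_dmap, h]
    · rw [← cancel_epi (jpt (𝟙 (𝟙_ LC)) Y), jpt_map_assoc, jpt_map_assoc, Category.id_comp, h]
    · obtain ⟨g, hg⟩ := h2 W (fun a => f (Option.some a))
      refine ⟨po.desc g (jpr (𝟙 _) Y ≫ f none)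
        ((isZero_tensor_left (isZero_empty (M := M)) Y).eq_of_src _ _), ?_⟩
      rintro (_ | a)
      · have e : jpt (dpt (none : Option α)) Y =
            jpt (𝟙 (𝟙_ LC)) Y ≫ Y ◁ (J M).map (dpt (none : Option α)) := by
          rw [jpt_map, Category.id_comp]
        rw [e, Category.assoc, po.inr_desc, jpt_jpr_id_assoc]
      · rw [← dpt_dmap a Option.some, ← jpt_map, Category.assoc, po.inl_desc, hg]

theorem dsc_ext {Y W : M} {Z : Type} [Finite Z] {f g : Y ⊗ (J M).obj (dsc Z) ⟶ W}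
    (h : ∀ z, jpt (dpt z) Y ≫ f = jpt (dpt z) Y ≫ g) : f = g := (dSum Y Z).1 W f g h

/-- the morphism out of `Y ⊗ j (dsc Z)` given by a family of morphisms -/
noncomputable def dscDesc {Y W : M} {Z : Type} [Finite Z] (f : Z → (Y ⟶ W)) :
    Y ⊗ (J M).obj (dsc Z) ⟶ W := ((dSum Y Z).2 W f).choose

@[reassoc (attr := simp)]
theorem jpt_dscDesc {Y W : M} {Z : Type} [Finite Z] (f : Z → (Y ⟶ W)) (z : Z) :
    jpt (dpt z) Y ≫ dscDesc f = f z := ((dSum Y Z).2 W f).choose_spec z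

end sum

section orb

variable {Γ : Type} [Group Γ] {Z : Type} [Finite Z] [MulAction Γ Z] {Y : M} {ρ : Γ → (Y ⟶ Y)}

theorem isAct_dmap : IsAct (fun g : Γ => dmap (fun z : Z => g • z)) :=
  ⟨by simp only [one_smul]; exact dmap_id, fun g h => by
    simp only [mul_smul]; exact dmap_comp _ _⟩

theorem isAct_tmap : IsAct (fun g : Γ => tmap (fun z : Z => g • z)) :=
  ⟨by simp only [one_smul]; exact tmap_id, fun g h => by
    simp only [mul_smul]; exact tmap_comp _ _⟩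

/-- The orbits of `Y ⊗ Z₊` under `K` are a retract of the coproduct of the orbits of `Y` under the
stabilizers in `K`. -/
theorem exists_retract_dsc (hρ : IsAct ρ) (K : Subgroup Γ) {Q : M}
    {π : Y ⊗ (J M).obj (dsc Z) ⟶ Q}
    (h : IsOrb (fun g : K => ρ g ⊗ₘ (J M).map (dmap (fun z : Z => (g : Γ) • z))) π)
    {Q' : Z → M} {π' : ∀ z, Y ⟶ Q' z}
    (h' : ∀ z, IsOrb (fun g : (K ⊓ MulAction.stabilizer Γ z : Subgroup Γ) => ρ g) (π' z)) :
    ∃ (s : Q ⟶ ∐ Q') (u : ∐ Q' ⟶ Q), s ≫ u = 𝟙 Q := by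
  have hπ : ∀ (g : K) (z : Z), ρ g ≫ jpt (dpt ((g : Γ) • z)) Y ≫ π = jpt (dpt z) Y ≫ π := by
    intro g z
    rw [← dpt_dmap z (fun z : Z => (g : Γ) • z), ← jpt_tensorHom_assoc, h.w g]
  have hu : ∀ z, ∃ u : Q' z ⟶ Q, π' z ≫ u = jpt (dpt z) Y ≫ π := fun z =>
    (h' z).desc _ fun g => by
      have := hπ ⟨g.1, g.2.1⟩ z
      rwa [show ((⟨g.1, g.2.1⟩ : K) : Γ) • z = z from g.2.2] at this
  choose u hu using hu
  -- representatives of the orbits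
  let r : Z → Z := fun z => (Quotient.mk (MulAction.orbitRel K Z) z).out
  have hr : ∀ z, ∃ g : K, (g : Γ) • z = r z := fun z =>
    Quotient.mk_out (s := MulAction.orbitRel K Z) z
  choose γ hγ using hr
  have hrg : ∀ (g : K) z, r ((g : Γ) • z) = r z := fun g z =>
    congrArg Quotient.out (Quotient.sound (s := MulAction.orbitRel K Z) ⟨g, rfl⟩)
  have key : ∀ (z w : Z) (a b : K), (a : Γ) • z = w → (b : Γ) • z = w →
      ρ a ≫ π' w = ρ b ≫ π' w := by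
    intro z w a b ha hb
    have hw := (h' w).w ⟨(a : Γ) * (b : Γ)⁻¹, K.mul_mem a.2 (K.inv_mem b.2), by
      change ((a : Γ) * (b : Γ)⁻¹) • w = w
      rw [mul_smul, ← hb, inv_smul_smul, ha, hb]⟩
    change ρ ((a : Γ) * (b : Γ)⁻¹) ≫ π' w = π' w at hw
    rw [← hw, ← Category.assoc (ρ b), ← hρ.mul, inv_mul_cancel_right, hw]
  have key' : ∀ (w w' : Z) (_ : w = w') (z : Z) (a b : K), (a : Γ) • z = w → (b : Γ) • z = w' →
      ρ a ≫ π' w ≫ Sigma.ι Q' w = ρ b ≫ π' w' ≫ Sigma.ι Q' w' := by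
    rintro w _ rfl z a b ha hb
    rw [reassoc_of% (key z w a b ha hb)]
  obtain ⟨s, hs⟩ := h.desc (dscDesc (fun z => ρ (γ z) ≫ π' (r z) ≫ Sigma.ι Q' (r z))) (fun g => by
    refine dsc_ext fun z => ?_
    rw [jpt_tensorHom_assoc, dpt_dmap, jpt_dscDesc, jpt_dscDesc, ← Category.assoc, ← hρ.mul]
    exact key' _ _ (hrg g z) z (γ ((g : Γ) • z) * g) (γ z)
      ((mul_smul _ _ _).trans (hγ _)) (hγ z))
  refine ⟨s, Sigma.desc u, h.ext (dsc_ext fun z => ?_)⟩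
  rw [reassoc_of% hs, jpt_dscDesc_assoc, Category.assoc, Category.assoc, Sigma.ι_desc, hu, ← hγ,
    hπ, Category.comp_id]

end orb

end Vale.Agent.P257.F
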