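import Vale.Agent.P257.F.Env

/-!
# P257, block F: connectivity of symmetric powers

For an orbit model `π : pw ι Y ⟶ D` of a symmetric power: the crude bound, vanishing for odd `Y`
in arities `2, …, p - 1`, the improved bound in arity `p`, and the splitting off of arity `p`.
-/

open CategoryTheory MonoidalCategory Limits Functor.LaxMonoidal Functor.OplaxMonoidal Pointwise

namespace Vale.Agent.P257.F

open Vale.Agent.P251.G Vale.Agent.P251.H Vale.Agent.P251.H.StabInput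
open Vale.Agent.P257.D Vale.Agent.P257.A Vale.Agent.P257.C

universe v u

/-- `D` is a symmetric power of `Y` -/
abbrev IsSym {M : Type u} [Category.{v} M] [MonoidalCategory M] [SymmetricCategory M] (ι : Type)
    [Finite ι] (Y : M) {D : M} (π : pw ι Y ⟶ D) : Prop :=
  IsOrb (fun g : Equiv.Perm ι => pwE Y g) π

theorem card_dvd_of_fixed {ι : Type} [Finite ι] (K : Subgroup (Equiv.Perm ι)) {z : ι}
    (hz : ∀ g ∈ K, g z = z) : Nat.card K ∣ (Nat.card ι - 1).factorial := by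
  classical
  have : Nonempty ι := ⟨z⟩
  have h1 : Nat.card K ∣ Nat.card (MulAction.stabilizer (Equiv.Perm ι) z) :=
    Subgroup.card_dvd_of_le hz
  have h2 := (MulAction.stabilizer (Equiv.Perm ι) z).index_mul_card
  rw [MulAction.index_stabilizer_of_transitive, Nat.card_perm,
    ← Nat.mul_factorial_pred Nat.card_pos.ne'] at h2
  rwa [Nat.eq_of_mul_eq_mul_left Nat.card_pos h2] at h1

theorem index_sumCongrHom (ι κ : Type) [Finite ι] [Finite κ] :
    (Equiv.Perm.sumCongrHom ι κ).range.index = (Nat.card ι + Nat.card κ).choose (Nat.card ι) := by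
  have h := (Equiv.Perm.sumCongrHom ι κ).range.index_mul_card
  rw [← Nat.card_congr (MonoidHom.ofInjective Equiv.Perm.sumCongrHom_injective).toEquiv,
    Nat.card_prod, Nat.card_perm, Nat.card_perm, Nat.card_perm, Nat.card_sum,
    ← Nat.choose_mul_factorial_mul_factorial (Nat.le_add_right (Nat.card ι) (Nat.card κ)),
    Nat.add_sub_cancel_left, mul_assoc] at h
  exact Nat.eq_of_mul_eq_mul_right (by positivity) h

theorem mem_sumCongrHom {ι κ : Type} [Finite ι] [Finite κ] (g : Equiv.Perm (ι ⊕ κ)) :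
    g ∈ (Equiv.Perm.sumCongrHom ι κ).range ↔
      ∀ i, Sum.elim (fun _ => 0) (fun _ => 1) (g i) = Sum.elim (fun _ => 0) (fun _ => 1) i := by
  refine ⟨?_, fun h => Equiv.Perm.mem_sumCongrHom_range_of_perm_mapsTo_inl ?_⟩
  · rintro ⟨⟨a, b⟩, rfl⟩ (i | i) <;> rfl
  · rintro _ ⟨i, rfl⟩
    have := h (Sum.inl i)
    rcases e : g (Sum.inl i) with j | j
    · exact ⟨j, rfl⟩
    · rw [e] at this
      exact absurd this one_ne_zero

variable {J : Type} [Idx J] [SphIdx J]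
  {C : Type u} [Category.{v} C] [MonoidalCategory C] [SymmetricCategory C] [Preadditive C]
  [MonoidalPreadditive C] {st : EF J ⥤ C} [st.Braided] {ι κ ν : Type} [Finite ι] [Finite κ]
  [Finite ν]

namespace Env

section general

variable {Δ : Type} [AddCommGroup Δ] {c : Cells C Δ} {s : Δ} (E : Env st c s) {P : Set Δ}
include E

/-- The crude bound for orbits of free actions. -/
theorem tConn_orb {Γ : Type} [Group Γ] [Finite Γ] {Y Q : EF J} {ρ : Γ → (Y ⟶ Y)} (hρ : IsAct ρ)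
    (hf : SFree ρ) {π : Y ⟶ Q} (hπ : IsOrb ρ π) (hP : ∀ (n : ℕ), ∀ q ∈ P, q + n • s ∈ P)
    (h : c.TConn (st.obj Y) P) : c.TConn (st.obj Q) P := fun B₀ d hB => by
  obtain ⟨B, ⟨e⟩⟩ := E.surj B₀
  refine (van_iff.1 ((E.free (hρ.map (tensorLeft B)) (hf.whiskerLeft B).levelFree (fun n => ?_)
    ⊤).top (hπ.whiskerLeft B))).of_iso (whiskerRightIso e _)
  refine van_iff.2 (h _ _ fun q hq => ?_)
  rw [sub_sub, add_comm]
  exact (hB _ (hP n q hq)).of_iso e.symm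

/-- Orbits under a group of invertible order which contains a transposition vanish. -/
theorem van_odd {X : EF J} (hX : SFree fun g : Equiv.Perm ι => pwE X g)
    (ho : TOdd c (st.obj (X ⊗ S (EF J)))) (h2 : Inv C 2) [DecidableEq ι]
    (K : Subgroup (Equiv.Perm ι)) (hK : Inv C (Nat.card K)) {x y : ι} (n : x ≠ y)
    (hxy : Equiv.swap x y ∈ K) (B : EF J) (d : Δ) :
    OVan st (c.obj d) K (fun g => B ◁ pwE (X ⊗ S (EF J)) g) := fun Q π hπ z => by
  obtain ⟨f, hf⟩ := Countable.exists_injective_nat ι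
  obtain ⟨w, rfl⟩ := E.transfer hX K.subtype K.subtype_injective f ⊥
    (fun g => ⟨fun h i => by rw [Subgroup.mem_bot.1 h, map_one, Equiv.Perm.one_apply],
      fun h => Subgroup.mem_bot.2 (Subtype.ext (Equiv.ext fun i => hf (h i)))⟩)
    (by rwa [Subgroup.index_bot]) B hπ (π' := 𝟙 _)
    (fun g hg => by
      rw [Subgroup.mem_bot.1 hg, map_one, (isAct_pwE _).one, MonoidalCategory.whiskerLeft_id,
        Category.comp_id]) (Category.id_comp π) z
  obtain ⟨R, e, he⟩ := exists_iso_swap (X ⊗ S (EF J)) n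
  let j := whiskerLeftIso (st.obj (B ⊗ R)) (Functor.Monoidal.μIso st (X ⊗ S (EF J)) (X ⊗ S (EF J)))
    ≪≫ Functor.Monoidal.μIso st _ _ ≪≫ st.mapIso (α_ B R _ ≪≫ whiskerLeftIso B e)
  have hj : j.hom ≫ st.map (B ◁ pwE (X ⊗ S (EF J)) (Equiv.swap x y)) =
      _ ◁ (β_ _ _).hom ≫ j.hom := by
    simp only [j, Iso.trans_hom, whiskerLeftIso_hom, Functor.Monoidal.μIso_hom,
      Functor.mapIso_hom, Category.assoc]
    rw [← st.map_comp, Category.assoc, ← MonoidalCategory.whiskerLeft_comp, he,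
      MonoidalCategory.whiskerLeft_comp, ← associator_naturality_right_assoc, st.map_comp,
      ← μ_natural_right_assoc, ← MonoidalCategory.whiskerLeft_comp_assoc,
      Functor.LaxBraided.braided, MonoidalCategory.whiskerLeft_comp_assoc]
  have k : w ≫ st.map (B ◁ pwE (X ⊗ S (EF J)) (Equiv.swap x y)) = -w := by
    rw [← Category.comp_id w, ← j.inv_hom_id, ← Category.assoc w, Category.assoc _ j.hom, hj,
      ← Category.assoc, ho, Preadditive.neg_comp]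
  refine h2.eq_zero ?_
  have k2 : w ≫ st.map π = -(w ≫ st.map π) := by
    rw [← Preadditive.neg_comp, ← k, Category.assoc, ← st.map_comp]
    exact congrArg (fun t => w ≫ st.map t) (hπ.w ⟨_, hxy⟩).symm
  rw [two_smul]
  exact add_eq_zero_iff_eq_neg.2 k2

variable {X D : EF J}

omit [MonoidalPreadditive C] [SphIdx J] E in
theorem tConn_pw {Y : EF J} (h : c.TConn (pw ι (st.obj Y)) P) : c.TConn (st.obj (pw ι Y)) P :=
  h.of_iso (asIso (laxBig st fun _ : ι => Y))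

/-- **Symmetric powers of odd objects vanish in invertible arities at least two.** -/
theorem tConn_sym_odd (hX : SFree fun g : Equiv.Perm ι => pwE X g)
    (ho : TOdd c (st.obj (X ⊗ S (EF J)))) (h2 : 2 ≤ Nat.card ι)
    (hι : Inv C (Nat.card ι).factorial) {π : pw ι (X ⊗ S (EF J)) ⟶ D}
    (hπ : IsSym ι (X ⊗ S (EF J)) π) : c.TConn (st.obj D) ∅ := fun B₀ d _ => by
  classical
  obtain ⟨B, ⟨e⟩⟩ := E.surj B₀
  have : Nontrivial ι := Finite.one_lt_card_iff_nontrivial.1 h2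
  obtain ⟨x, y, n⟩ := exists_pair_ne ι
  exact (van_iff.1 ((E.van_odd hX ho (hι.of_dvd (Nat.dvd_factorial two_pos h2)) ⊤
    (by rwa [Subgroup.card_top, Nat.card_perm]) n trivial B d).top
      (hπ.whiskerLeft B))).of_iso (whiskerRightIso e _)

/-- **The improved bound for symmetric powers of odd objects.** -/
theorem tConn_sym_top (hX : SFree fun g : Equiv.Perm ι => pwE X g)
    (hY : SFree fun g : Equiv.Perm ι => pwE (X ⊗ S (EF J)) g)
    (ho : TOdd c (st.obj (X ⊗ S (EF J)))) {k : ℕ} (hk : Nat.card ι = k + 2)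
    (hι : Inv C (k + 1).factorial) {π : pw ι (X ⊗ S (EF J)) ⟶ D}
    (hπ : IsSym ι (X ⊗ S (EF J)) π) (hP : ∀ (n : ℕ), ∀ q ∈ P, q + n • s ∈ P)
    (h : c.TConn (st.obj (pw ι (X ⊗ S (EF J)))) P) : c.TConn (st.obj D) (P + {k • s}) :=
  fun B₀ d hB => by
  classical
  have := Fintype.ofFinite ι
  have : Nonempty ι := (Nat.card_pos_iff.1 (by omega)).1
  obtain ⟨B, ⟨e⟩⟩ := E.surj B₀
  have hρ := (isAct_pwE (ι := ι) (X ⊗ S (EF J))).map (tensorLeft B)
  refine (van_iff.1 ((E.general_free hρ (hY.whiskerLeft B).levelFree (Z := ι)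
    (fam := fun n K => ∃ F : Finset ι, F.Nonempty ∧ F.card ≤ n + 1 ∧
      ∀ g, g ∈ K ↔ ∀ x ∈ F, g x = x) ?_ (K₀ := ⊤) ?_ ?_).top
        (hπ.whiskerLeft B))).of_iso (whiskerRightIso e _)
  · rintro n K z ⟨F, -, h2, h3⟩
    refine ⟨insert z F, Finset.insert_nonempty _ _, (Finset.card_insert_le _ _).trans (by omega),
      fun g => ?_⟩
    rw [Subgroup.mem_inf, h3, Finset.forall_mem_insert, and_comm]
    rfl
  · exact fun z => ⟨{z}, Finset.singleton_nonempty z, by simp, fun g => by simp⟩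
  · rintro n K ⟨F, ⟨z, hz⟩, h2, h3⟩
    by_cases hn : n < k
    · have h4 : 1 < Fᶜ.card := by
        rw [Finset.card_compl, ← Nat.card_eq_fintype_card]
        omega
      obtain ⟨x, hx, y, hy, hxy⟩ := Finset.one_lt_card.1 h4
      refine E.van_odd hX ho (hι.of_dvd (Nat.dvd_factorial two_pos (by omega))) K
        (hι.of_dvd ?_) hxy ((h3 _).2 fun w hw => Equiv.swap_apply_of_ne_of_ne ?_ ?_) B _
      · have := card_dvd_of_fixed K fun g hg => (h3 g).1 hg z hz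
        rwa [hk] at this
      · exact fun l => Finset.mem_compl.1 hx (l ▸ hw)
      · exact fun l => Finset.mem_compl.1 hy (l ▸ hw)
    · obtain ⟨m, rfl⟩ := Nat.exists_eq_add_of_le (not_lt.1 hn)
      refine E.free hρ (hY.whiskerLeft B).levelFree (fun l => van_iff.2 (h _ _ fun q hq => ?_)) K
      have := (hB _ (Set.add_mem_add (hP (m + l) q hq) rfl)).of_iso e.symm
      rwa [show d - (q + (m + l) • s + k • s) = d - (k + m) • s - l • s - q by
        rw [add_smul, add_smul]; abel] at this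

/-- **Multiplication of symmetric powers is stably surjective** when the binomial coefficient is
invertible. -/
theorem surj_sym_mul (hX : SFree fun g : Equiv.Perm (ι ⊕ κ) => pwE X g)
    (hc : Inv C ((Nat.card ι + Nat.card κ).choose (Nat.card ι))) {D₁ D₂ : EF J}
    {π₁ : pw ι (X ⊗ S (EF J)) ⟶ D₁} (h₁ : IsSym ι (X ⊗ S (EF J)) π₁)
    {π₂ : pw κ (X ⊗ S (EF J)) ⟶ D₂} (h₂ : IsSym κ (X ⊗ S (EF J)) π₂)
    {π : pw ν (X ⊗ S (EF J)) ⟶ D} (h : IsSym ν (X ⊗ S (EF J)) π) (e : ι ⊕ κ ≃ ν) :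
    ∃ q : D₁ ⊗ D₂ ⟶ D, (π₁ ⊗ₘ π₂) ≫ q = pwS ι κ _ ≫ pwE _ e ≫ π ∧
      ∀ (B : EF J) (d : Δ) (x : c.obj d ⟶ st.obj (B ⊗ D)), ∃ y, y ≫ st.map (B ◁ q) = x := by
  have h' : IsSym (ι ⊕ κ) (X ⊗ S (EF J)) (pwE _ e ≫ π) :=
    (h.reindex (ρ' := fun g : Equiv.Perm (ι ⊕ κ) => pwE _ (e.permCongr g))
      (fun g => ⟨e.permCongr.symm g, by rw [Equiv.apply_symm_apply]⟩)
      (fun g => ⟨_, rfl⟩)).iso_comp (asIso (pwE _ e)) fun g => by
        rw [asIso_hom, ← pwE_trans, ← pwE_trans]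
        exact congrArg _ (Equiv.ext fun i => by simp)
  have w : ∀ (a : Equiv.Perm ι) (b : Equiv.Perm κ), (pwE (X ⊗ S (EF J)) a ⊗ₘ pwE _ b) ≫
      pwS ι κ _ ≫ pwE _ e ≫ π = pwS ι κ _ ≫ pwE _ e ≫ π := fun a b => by
    rw [← pwS_sumCongr_assoc, h'.w (a.sumCongr b)]
  obtain ⟨q, hq⟩ := (h₁.tensor h₂).desc (pwS ι κ _ ≫ pwE _ e ≫ π) (by
    rintro (a | b)
    · have := w a (Equiv.refl _)
      rwa [pwE_refl, tensorHom_id] at this
    · have := w (Equiv.refl _) b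
      rwa [pwE_refl, id_tensorHom] at this)
  refine ⟨q, hq, fun B d x => E.transfer hX (MonoidHom.id _) Function.injective_id _ _
    mem_sumCongrHom (by rwa [index_sumCongrHom]) B (h'.whiskerLeft B)
    (π' := B ◁ (inv (pwS ι κ _) ≫ (π₁ ⊗ₘ π₂))) ?_ ?_ x⟩
  · rintro _ ⟨⟨a, b⟩, rfl⟩
    rw [← MonoidalCategory.whiskerLeft_comp]
    congr 1
    rw [← cancel_epi (pwS ι κ _), IsIso.hom_inv_id_assoc]
    refine ((reassoc_of% (pwS_sumCongr (X ⊗ S (EF J)) a b)) _).trans ?_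
    rw [IsIso.hom_inv_id_assoc, tensorHom_comp_tensorHom, h₁.w, h₂.w]
  · rw [← MonoidalCategory.whiskerLeft_comp, Category.assoc, hq, IsIso.inv_hom_id_assoc]

/-- domination form -/
theorem dom_sym (hX : SFree fun g : Equiv.Perm (ι ⊕ κ) => pwE X g)
    (hc : Inv C ((Nat.card ι + Nat.card κ).choose (Nat.card ι))) {D₁ D₂ : EF J}
    {π₁ : pw ι (X ⊗ S (EF J)) ⟶ D₁} (h₁ : IsSym ι (X ⊗ S (EF J)) π₁)
    {π₂ : pw κ (X ⊗ S (EF J)) ⟶ D₂} (h₂ : IsSym κ (X ⊗ S (EF J)) π₂)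
    {π : pw ν (X ⊗ S (EF J)) ⟶ D} (h : IsSym ν (X ⊗ S (EF J)) π)
    (e : Nat.card ν = Nat.card ι + Nat.card κ) (B₀ : C) (d : Δ)
    (hB : c.Van (B₀ ⊗ (st.obj D₁ ⊗ st.obj D₂)) d) : c.Van (B₀ ⊗ st.obj D) d := by
  obtain ⟨B, ⟨i⟩⟩ := E.surj B₀
  obtain ⟨q, -, hq⟩ := E.surj_sym_mul hX hc h₁ h₂ h
    (Finite.card_eq.1 ((Nat.card_sum).trans e.symm)).some
  refine (van_iff.1 fun x => ?_).of_iso (whiskerRightIso i _)
  obtain ⟨y, rfl⟩ := hq B d x
  rw [van_iff.2 (hB.of_iso (i.symm ⊗ᵢ Functor.Monoidal.μIso st D₁ D₂)) y, zero_comp]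

end general

section main

variable {ℓ : J ⥤ O} [ℓ.Braided] [IdxFun ℓ] (hz : ∀ {a b : J} (f : a ⟶ b), ℓ.map f = 0 → f = 0)
  {Γ : Type} [AddCommGroup Γ] {c : Cells C (ℤ × Γ)} (E : Env st c (1, 0)) {X Y D : EF J}
  {g : Γ} {r : ℤ} {p : ℕ}

theorem up_add (n : ℕ) (q : ℤ × Γ) (hq : q ∈ Up g r) : q + n • ((1, 0) : ℤ × Γ) ∈ Up g r :=
  ⟨by simpa using hq.1, by
    have := hq.2
    simp only [Prod.smul_mk, Prod.fst_add, nsmul_eq_mul, mul_one]
    omega⟩

omit [MonoidalPreadditive C] [SphIdx J] in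
theorem conn_pw (h : c.Conn (st.obj Y) g r) :
    c.Conn (st.obj (pw ι Y)) (Nat.card ι • g) (Nat.card ι * r) := by
  have := Fintype.ofFinite ι
  have k := Cells.Conn.bigT (ι := ι) fun _ => h
  rw [Finset.sum_const, Finset.sum_const, Finset.card_univ, ← Nat.card_eq_fintype_card,
    nsmul_eq_mul (Nat.card ι) r] at k
  exact tConn_pw k

include hz E

/-- (1) the crude bound -/
theorem conn_sym (hY : HasVec ℓ Y) {π : pw ι Y ⟶ D} (hπ : IsSym ι Y π)
    (h : c.Conn (st.obj Y) g r) : c.Conn (st.obj D) (Nat.card ι • g) (Nat.card ι * r) :=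
  E.tConn_orb (isAct_pwE Y) (hY.sFree hz ι) hπ up_add (conn_pw h)

/-- (1) the crude bound for general sets of degrees -/
theorem tConn_sym (hY : HasVec ℓ Y) {π : pw ι Y ⟶ D} (hπ : IsSym ι Y π) {P : Set (ℤ × Γ)}
    (hP : ∀ (n : ℕ), ∀ q ∈ P, q + n • ((1, 0) : ℤ × Γ) ∈ P)
    (h : c.TConn (pw ι (st.obj Y)) P) : c.TConn (st.obj D) P :=
  E.tConn_orb (isAct_pwE Y) (hY.sFree hz ι) hπ hP (tConn_pw h)

/-- (1) symmetric powers of acyclic objects are acyclic -/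
theorem acyclic_sym [Nonempty ι] (hY : HasVec ℓ Y) {π : pw ι Y ⟶ D} (hπ : IsSym ι Y π)
    (h : c.TConn (st.obj Y) ∅) : c.TConn (st.obj D) ∅ := by
  have := Fintype.ofFinite ι
  refine E.tConn_sym hz hY hπ (fun _ _ h => h.elim) ((Cells.TConn.bigT fun _ => h).mono ?_)
  intro q hq
  obtain ⟨f, hf, -⟩ := (Set.mem_fintype_sum _ _).1 hq
  exact hf (Classical.arbitrary ι)

/-- (2) vanishing in the arities `2, …, p - 1` -/
theorem acyclic_sym_odd (hp : p.Prime) (hi : InvLt C p) (hX : HasVec ℓ X)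
    (ho : TOdd c (st.obj (X ⊗ S (EF J)))) {π : pw ι (X ⊗ S (EF J)) ⟶ D}
    (hπ : IsSym ι (X ⊗ S (EF J)) π) (h2 : 2 ≤ Nat.card ι) (h3 : Nat.card ι < p) :
    c.TConn (st.obj D) ∅ :=
  E.tConn_sym_odd (hX.sFree hz ι) ho h2 (hi.factorial hp h3) hπ

/-- (3) the bound in arity `p` -/
theorem conn_sym_odd (hp : p.Prime) (hi : InvLt C p) (hX : HasVec ℓ X)
    (ho : TOdd c (st.obj (X ⊗ S (EF J)))) {π : pw ι (X ⊗ S (EF J)) ⟶ D}
    (hπ : IsSym ι (X ⊗ S (EF J)) π) (hι : Nat.card ι = p)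
    (h : c.Conn (st.obj (X ⊗ S (EF J))) g r) : c.Conn (st.obj D) (p • g) (p * r + p - 2) := by
  obtain ⟨k, rfl⟩ := Nat.exists_eq_add_of_le' hp.two_le
  refine (E.tConn_sym_top (hX.sFree hz ι) ((hX.tensor _).sFree hz ι) ho hι
    (hi.factorial hp (by omega)) hπ up_add (conn_pw h)).mono ?_
  rintro _ ⟨q, hq, _, rfl, rfl⟩
  rw [hι] at hq
  refine ⟨by simpa using hq.1, ?_⟩
  have := hq.2
  simp only [Prod.smul_mk, Prod.fst_add, nsmul_eq_mul, mul_one]
  push_cast at this ⊢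
  omega

/-- (4) splitting off arity `p` -/
theorem dom_sym_prime (hp : p.Prime) (hi : InvLt C p) (hX : HasVec ℓ X) {D₁ D₂ : EF J}
    {π₁ : pw ι (X ⊗ S (EF J)) ⟶ D₁} (h₁ : IsSym ι (X ⊗ S (EF J)) π₁)
    {π₂ : pw κ (X ⊗ S (EF J)) ⟶ D₂} (h₂ : IsSym κ (X ⊗ S (EF J)) π₂)
    {π : pw ν (X ⊗ S (EF J)) ⟶ D} (h : IsSym ν (X ⊗ S (EF J)) π) (hι : Nat.card ι = p)
    (e : Nat.card ν = p + Nat.card κ) (hν : Nat.card ν < p ^ 2) (B : C) (d : ℤ × Γ)
    (hB : c.Van (B ⊗ (st.obj D₁ ⊗ st.obj D₂)) d) : c.Van (B ⊗ st.obj D) d :=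
  E.dom_sym (hX.sFree hz _) (by rw [hι, ← e]; exact hi.choose hp (by omega) hν) h₁ h₂ h
    (by rw [hι, e]) B d hB

end main

end Env

end Vale.Agent.P257.F
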