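import Vale.Agent.P257.F.Frame
import Vale.Agent.P257.A.Pres

/-!
# P257, block F: symmetric groups act level-wise freely on powers of objects with a vector

`HasVec ℓ X`: `X ≅ rep c ⊗ W` with `ℓ c` of positive dimension.  Then `Perm ι` acts level-wise
freely on `X^ι ⊗ V` for every action on `V`.
-/

open CategoryTheory MonoidalCategory Limits Topology OnePoint Matrix

namespace Vale.Agent.P257.F

open Vale.Agent.P251.G Vale.Agent.P251.H
open Vale.Agent.P257.D Vale.Agent.P257.D.EF Vale.Agent.P257.A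
open Functor.LaxMonoidal Functor.OplaxMonoidal

variable {J : Type} [Idx J] {ι κ : Type}

section pts

variable {X : ι → EF J} {a : ι → J}

/-- the tensor product of points along a list -/
noncomputable def ptL (x : ∀ i, OnePoint ((X i).obj (a i))) :
    ∀ l : List ι, OnePoint ((evL X l).obj (evL a l))
  | [] => pr (𝟙 (𝟙_ J))
  | i :: l => tm (x i) (ptL x l)

theorem sw_tm {A B C : EF J} {a b c : J} (x : OnePoint (A.obj a)) (y : OnePoint (B.obj b))
    (z : OnePoint (C.obj c)) :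
    (B ⊗ A ⊗ C).act (sw a b c).hom (fn (sw A B C).hom (tm x (tm y z))) = tm y (tm x z) := by
  rw [sw_hom A, fn_comp, fn_comp, associator_inv_tm, fn_act, fn_act, whiskerRight_tm, braiding_tm,
    ← act_tm_left, fn_act, associator_tm, ← act_comp, ← act_comp, ← act_comp, sw_hom]
  simp only [Iso.hom_inv_id_assoc]
  rw [← comp_whiskerRight_assoc, SymmetricCategory.symmetry, id_whiskerRight, Category.id_comp,
    Iso.inv_hom_id, act_id]

theorem Rem_ptL (x : ∀ i, OnePoint ((X i).obj (a i))) {i : ι} : ∀ {l l' : List ι}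
    (r : Rem i l l'), (X i ⊗ evL X l').act (r.iso a).hom (fn (r.iso X).hom (ptL x l)) =
      tm (x i) (ptL x l')
  | _, _, Rem.here _ => act_id _ _
  | _, _, Rem.there j (l := l) (l' := l') r => by
    change (X i ⊗ X j ⊗ evL X l').act (a j ◁ (r.iso a).hom ≫ (sw _ _ _).hom)
      (fn (X j ◁ (r.iso X).hom ≫ (sw _ _ _).hom) (tm (x j) (ptL x l))) =
        tm (x i) (tm (x j) (ptL x l'))
    rw [act_comp, fn_comp, ← fn_act, whiskerLeft_tm, act_tm_right, Rem_ptL x r, sw_tm]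

theorem Pm_ptL (x : ∀ i, OnePoint ((X i).obj (a i))) : ∀ {l m : List ι} (P : Pm l m),
    (evL X m).act (P.iso a).hom (fn (P.iso X).hom (ptL x l)) = ptL x m
  | _, _, Pm.nil => act_id _ _
  | _, _, Pm.cons (i := i) (l := l) (m := m) r P => by
    change (X i ⊗ evL X m).act ((r.iso a).hom ≫ a i ◁ (P.iso a).hom)
      (fn ((r.iso X).hom ≫ X i ◁ (P.iso X).hom) (ptL x l)) = tm (x i) (ptL x m)
    rw [act_comp, fn_comp, ← fn_act, Rem_ptL, whiskerLeft_tm, act_tm_right, Pm_ptL x P]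

theorem relL_ptL {X : κ → EF J} {a : κ → J} (x : ∀ i, OnePoint ((X i).obj (a i))) (e : ι → κ) :
    ∀ l : List ι, (evL X (l.map e)).act (relL a e l).hom
      (fn (relL X e l).hom (ptL (fun i => x (e i)) l)) = ptL x (l.map e)
  | [] => act_id _ _
  | i :: l => by
    change (X (e i) ⊗ evL X (l.map e)).act (a (e i) ◁ (relL a e l).hom)
      (fn (X (e i) ◁ (relL X e l).hom) (tm (x (e i)) (ptL (fun i => x (e i)) l))) =
        tm (x (e i)) (ptL x (l.map e))
    rw [whiskerLeft_tm, act_tm_right, relL_ptL x e l]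

theorem bigEquiv_ptL [Finite ι] [Finite κ] {X : κ → EF J} {a : κ → J}
    (x : ∀ i, OnePoint ((X i).obj (a i))) (e : ι ≃ κ) :
    (big X).act (bigEquiv e a).hom (fn (bigEquiv e X).hom (ptL (fun i => x (e i)) (enum ι))) =
      ptL x (enum κ) := by
  change (evL X (enum κ)).act ((relL a e (enum ι)).hom ≫ ((pmEquiv e).iso a).hom)
    (fn ((relL X e (enum ι)).hom ≫ ((pmEquiv e).iso X).hom) (ptL (fun i => x (e i)) (enum ι))) = _
  rw [act_comp, fn_comp, ← fn_act, relL_ptL, Pm_ptL]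

variable (a) in
theorem isIso_yo_ptL : ∀ l : List ι,
    IsIso (yo (ptL (X := fun i => rep (a i)) (fun i => pr (𝟙 (a i))) l))
  | [] => by
    have : yo (ptL (X := fun i => rep (a i)) (fun i => pr (𝟙 (a i))) []) = 𝟙 (rep (𝟙_ J)) :=
      repMap_id _
    rw [this]
    exact IsIso.id _
  | i :: l => by
    have := isIso_yo_ptL l
    have h : yo (tm (pr (𝟙 (a i))) (ptL (X := fun i => rep (a i)) (fun i => pr (𝟙 (a i))) l)) =
        (repTensor (a i) (evL a l)).inv ≫
          rep (a i) ◁ yo (ptL (X := fun i => rep (a i)) (fun i => pr (𝟙 (a i))) l) := by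
      refine Eq.trans ?_ (yo_comp _ _).symm
      rw [whiskerLeft_tm, fn_yo_pr, act_id]
    have h' : IsIso (yo (tm (pr (𝟙 (a i)))
        (ptL (X := fun i => rep (a i)) (fun i => pr (𝟙 (a i))) l))) := by
      rw [h]; infer_instance
    exact h'

end pts

variable [Finite ι] [Finite κ]

variable (ι) in
/-- `rep (c^ι) ≅ (rep c)^ι` -/
noncomputable def pwRep (c : J) : rep (pw ι c) ≅ pw ι (rep c) :=
  @asIso _ _ _ _ _ (isIso_yo_ptL (fun _ : ι => c) (enum ι))

@[reassoc]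
theorem pwRep_pwE (c : J) (e : ι ≃ κ) :
    repMap (pwE c e.symm) ≫ (pwRep κ c).hom = (pwRep ι c).hom ≫ pwE (rep c) e := by
  refine (repMap_yo _ _).trans (Eq.trans (congrArg yo ?_) (yo_comp _ _).symm)
  have h := bigEquiv_ptL (X := fun _ : κ => rep c) (a := fun _ => c) (fun _ => pr (𝟙 c)) e
  refine (congrArg _ h.symm).trans ?_
  refine (act_comp _ _ _ _).symm.trans ?_
  exact (congrArg (fun w => (pw κ (rep c)).act w _) (pwE_symm c e)).trans (act_id _ _)

theorem isAct_pwE {M : Type*} [Category M] [MonoidalCategory M] [SymmetricCategory M] (X : M) :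
    IsAct (fun g : Equiv.Perm ι => pwE X g) :=
  ⟨pwE_refl X, fun g h => pwE_trans X h g⟩

theorem O_pwE_faith {c : O} [Nonempty c.El] {g : Equiv.Perm ι} (h : pwE c g = 𝟙 _) : g = 1 := by
  classical
  ext i
  have h1 := O.act_bigEquiv g (fun _ => c) (Pi.single (g i) 1)
  have h2 : (bigEquiv g (fun _ => c)).hom = 𝟙 _ := h
  rw [h2, O.act_id] at h1
  have h3 := congrFun (O.bvec_injective (OnePoint.coe_injective h1)) i
  by_contra hne
  simp only [Pi.single_eq_same] at h3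
  rw [Pi.single_eq_of_ne (fun e : i = g i => hne e.symm)] at h3
  exact one_ne_zero (congrFun h3 (Classical.arbitrary _))

variable (ℓ : J ⥤ O) [ℓ.Braided]

theorem idxAct_pwE (c : J) [Nonempty (ℓ.obj c).El] :
    IdxAct ℓ (fun g : Equiv.Perm ι => pwE c g.symm) where
  one := pwE_refl c
  mul g h := pwE_trans c g.symm h.symm
  faith g hg := by
    have h := bigEquiv_laxBig ℓ g.symm (fun _ => c)
    change pwE (ℓ.obj c) g.symm ≫ _ = _ ≫ ℓ.map (pwE c g.symm) at h
    rw [hg, Category.comp_id] at h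
    have h2 : pwE (ℓ.obj c) g.symm = 𝟙 _ :=
      (cancel_mono (laxBig ℓ (fun _ : ι => c))).mp (h.trans (Category.id_comp _).symm)
    exact inv_eq_one.mp (O_pwE_faith h2)

/-- objects `rep c ⊗ W` with `c` of positive dimension -/
def HasVec (X : EF J) : Prop :=
  ∃ (c : J) (W : EF J), Nonempty (ℓ.obj c).El ∧ Nonempty (X ≅ rep c ⊗ W)

variable {ℓ}

omit [ℓ.Braided] in
theorem HasVec.of_iso {X Y : EF J} (h : HasVec ℓ X) (e : X ≅ Y) : HasVec ℓ Y := by
  obtain ⟨c, W, h1, ⟨i⟩⟩ := h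
  exact ⟨c, W, h1, ⟨e.symm ≪≫ i⟩⟩

omit [ℓ.Braided] in
theorem HasVec.tensor {X : EF J} (h : HasVec ℓ X) (Y : EF J) : HasVec ℓ (X ⊗ Y) := by
  obtain ⟨c, W, h1, ⟨i⟩⟩ := h
  exact ⟨c, W ⊗ Y, h1, ⟨whiskerRightIso i Y ≪≫ α_ _ _ _⟩⟩

omit [ℓ.Braided] in
theorem HasVec.tensor' {X : EF J} (h : HasVec ℓ X) (Y : EF J) : HasVec ℓ (Y ⊗ X) :=
  (h.tensor Y).of_iso (β_ _ _)

omit [ℓ.Braided] in
theorem HasVec.rep {c : J} (h : Nonempty (ℓ.obj c).El) : HasVec ℓ (rep c) :=
  ⟨c, 𝟙_ _, h, ⟨(ρ_ _).symm⟩⟩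

variable [SphIdx J] [IdxFun ℓ]

/-- **Symmetric groups act level-wise freely on powers.** -/
theorem HasVec.levelFree (hz : ∀ {a b : J} (f : a ⟶ b), ℓ.map f = 0 → f = 0) {X : EF J}
    (h : HasVec ℓ X) {V : EF J} (τ : Equiv.Perm ι → (V ⟶ V)) :
    LevelFree (fun g : Equiv.Perm ι => pwE X g ⊗ₘ τ g) := by
  obtain ⟨c, W, h1, ⟨i⟩⟩ := h
  have h2 := levelFree_rep hz (idxAct_pwE (ι := ι) ℓ c) (fun g => pwE W g ⊗ₘ τ g)
  let e : EF.rep (pw ι c) ⊗ pw ι W ≅ pw ι X := whiskerRightIso (pwRep ι c) _ ≪≫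
    (bigTensor (fun _ : ι => EF.rep c) (fun _ => W)).symm ≪≫ bigMapIso (fun _ => i.symm)
  have he : ∀ g : Equiv.Perm ι, (repMap (pwE c g.symm) ⊗ₘ pwE W g) ≫ e.hom = e.hom ≫ pwE X g :=
    fun g => by
      have h3 : pwE (EF.rep c ⊗ W) g ≫ (bigTensor (fun _ : ι => EF.rep c) (fun _ => W)).hom =
          (bigTensor (fun _ : ι => EF.rep c) (fun _ => W)).hom ≫ (pwE (EF.rep c) g ⊗ₘ pwE W g) :=
        bigEquiv_bigTensor g _ _
      rw [← Iso.eq_comp_inv, Category.assoc, ← Iso.inv_comp_eq] at h3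
      simp only [e, Iso.trans_hom, whiskerRightIso_hom, Iso.symm_hom, bigMapIso_hom,
        Category.assoc]
      rw [pwM_pwE, reassoc_of% h3, ← tensorHom_id, tensorHom_comp_tensorHom_assoc,
        tensorHom_comp_tensorHom_assoc, pwRep_pwE, Category.comp_id, Category.id_comp]
  refine h2.of_iso ((α_ _ _ _).symm ≪≫ whiskerRightIso e V) (fun g => ?_)
  simp only [Iso.trans_hom, whiskerRightIso_hom, Iso.symm_hom, Category.assoc]
  rw [associator_inv_naturality_assoc, ← tensorHom_id, tensorHom_comp_tensorHom,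
    tensorHom_comp_tensorHom, he, Category.comp_id, Category.id_comp]

end Vale.Agent.P257.F
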