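import Vale.Agent.P257.F.Trans
import Vale.Agent.P257.F.Vec
import Vale.Agent.P257.C.TConn
import Vale.Agent.P257.L.Loc
import Mathlib.Data.Nat.Choose.Lucas

/-!
# P257, block F: the free lemma and the transfer for maps out of cells

`Env st c s`: the properties of a stabilisation `st : EF J ⥤ C` with cells `c` and suspension
degree `s` which the free lemma needs.  `Inv C m`: `m` is invertible in `C`.  `TOdd c Y`: the
braiding of `Y ⊗ Y` is `-1` on maps out of cells.
-/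

open CategoryTheory MonoidalCategory Limits Functor.LaxMonoidal Functor.OplaxMonoidal

namespace Vale.Agent.P257.F

open Vale.Agent.P251.G Vale.Agent.P251.H Vale.Agent.P251.H.StabInput
open Vale.Agent.P257.D Vale.Agent.P257.A Vale.Agent.P257.C

universe v u v' u'

section inv

variable (C : Type u) [Category.{v} C] [Preadditive C]

/-- `m` is invertible in `C` -/
def Inv (m : ℕ) : Prop := ∀ X : C, IsIso (m • 𝟙 X)

/-- all primes below `p ^ 2` other than `p` are invertible in `C` -/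
def InvLt (p : ℕ) : Prop := ∀ q : ℕ, q.Prime → q < p ^ 2 → q ≠ p → Inv C q

variable {C} {m n p : ℕ}

theorem Inv.one : Inv C 1 := fun X => by
  rw [one_smul]
  infer_instance

theorem Inv.mul (h : Inv C m) (k : Inv C n) : Inv C (m * n) := fun X => by
  have := h X
  have := k X
  rw [show (m * n) • 𝟙 X = (m • 𝟙 X) ≫ (n • 𝟙 X) by
    rw [Preadditive.nsmul_comp, Category.id_comp, smul_smul]]
  infer_instance

theorem Inv.of_dvd (h : Inv C n) (k : m ∣ n) : Inv C m := fun X => by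
  obtain ⟨l, rfl⟩ := k
  have := h X
  refine ⟨l • inv ((m * l) • 𝟙 X), ?_, ?_⟩
  · rw [Preadditive.nsmul_comp, Category.id_comp, smul_smul,
      ← Category.id_comp (inv ((m * l) • 𝟙 X)), ← Preadditive.nsmul_comp, IsIso.hom_inv_id]
  · rw [Preadditive.comp_nsmul, Category.comp_id, smul_smul,
      ← Category.comp_id (inv ((m * l) • 𝟙 X)), ← Preadditive.comp_nsmul, IsIso.inv_hom_id]

theorem Inv.of_primes (hm : m ≠ 0) (h : ∀ q : ℕ, q.Prime → q ∣ m → Inv C q) : Inv C m := by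
  induction m using induction_on_primes with
  | zero => exact (hm rfl).elim
  | one => exact Inv.one
  | prime_mul q a hq ih =>
    exact (h q hq (dvd_mul_right q a)).mul (ih (right_ne_zero_of_mul hm)
      fun r hr k => h r hr (k.mul_left q))

theorem Inv.eq_zero (h : Inv C m) {X Y : C} {f : X ⟶ Y} (k : m • f = 0) : f = 0 := by
  have := h Y
  rw [← cancel_mono (m • 𝟙 Y), Preadditive.comp_nsmul, Category.comp_id, k, zero_comp]

theorem InvLt.of_dvd (h : InvLt C p) {k : ℕ} (hk : k < p ^ 2) (hm : m ∣ k.factorial)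
    (hp : ¬p ∣ m) : Inv C m :=
  Inv.of_primes (ne_zero_of_dvd_ne_zero k.factorial_ne_zero hm) fun q hq e =>
    h q hq ((hq.dvd_factorial.1 (e.trans hm)).trans_lt hk) fun l => hp (l ▸ e)

theorem InvLt.factorial (h : InvLt C p) (hp : p.Prime) {k : ℕ} (hk : k < p) :
    Inv C k.factorial :=
  h.of_dvd (hk.trans_le (Nat.le_self_pow two_ne_zero p)) dvd_rfl fun e =>
    absurd (hp.dvd_factorial.1 e) (not_le.2 hk)

theorem InvLt.choose (h : InvLt C p) (hp : p.Prime) {k : ℕ} (h1 : p ≤ k) (h2 : k < p ^ 2) :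
    Inv C (k.choose p) := by
  have := Fact.mk hp
  refine h.of_dvd h2 ⟨p.factorial * (k - p).factorial, by
    rw [← mul_assoc, Nat.choose_mul_factorial_mul_factorial h1]⟩ fun e => ?_
  have l := Choose.choose_modEq_choose_mod_mul_choose_div_nat (n := k) (k := p) (p := p)
  rw [Nat.mod_self, Nat.div_self hp.pos, Nat.choose_zero_right, Nat.choose_one_right,
    one_mul] at l
  exact absurd (Nat.le_of_dvd (Nat.div_pos h1 hp.pos) ((l.dvd_iff dvd_rfl).1 e))
    (not_le.2 (Nat.div_lt_of_lt_mul (by rwa [← sq])))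

end inv

section odd

variable {C : Type u} [Category.{v} C] [MonoidalCategory C] [SymmetricCategory C]

/-- a transposition acts through the braiding of two factors -/
theorem exists_iso_swap (Y : C) {ι : Type} [Finite ι] [DecidableEq ι] {x y : ι} (n : x ≠ y) :
    ∃ (R : C) (e : R ⊗ (Y ⊗ Y) ≅ pw ι Y),
      e.hom ≫ pwE Y (Equiv.swap x y) = R ◁ (β_ Y Y).hom ≫ e.hom := by
  let κ := {i : {i // i ≠ x} // i ≠ ⟨y, n.symm⟩}
  let e : Option (Option κ) ≃ ι :=
    (Equiv.optionSubtypeNe (⟨y, n.symm⟩ : {i // i ≠ x})).optionCongr.trans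
      (Equiv.optionSubtypeNe x)
  have k2 : e.trans (Equiv.swap x y) = (optSwap κ).trans e := by
    refine Equiv.ext fun i => ?_
    rcases i with _ | _ | i
    · exact Equiv.swap_apply_left x y
    · exact Equiv.swap_apply_right x y
    · exact Equiv.swap_apply_of_ne_of_ne i.1.2 fun k => i.2 (Subtype.ext k)
  refine ⟨pw κ Y, β_ _ _ ≪≫ α_ _ _ _ ≪≫
    asIso (Y ◁ pwO κ Y ≫ pwO (Option κ) Y ≫ pwE Y e), ?_⟩
  simp only [Iso.trans_hom, asIso_hom, Category.assoc]
  rw [← pwE_trans, k2, pwE_trans, pwO_optSwap_assoc, sw_hom,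
    BraidedCategory.braiding_naturality_right_assoc]
  simp only [Category.assoc, Iso.hom_inv_id_assoc]

variable [Preadditive C] {Δ : Type} [AddCommGroup Δ] (c : Cells C Δ)

/-- the braiding of `Y ⊗ Y` is `-1` on maps out of cells -/
def TOdd (Y : C) : Prop :=
  ∀ (B : C) (d : Δ) (x : c.obj d ⟶ B ⊗ (Y ⊗ Y)), x ≫ B ◁ (β_ Y Y).hom = -x

variable {c} {Y Y' : C}

theorem TOdd.of_hasSign [MonoidalPreadditive C] (h : HasSign Y (-1)) : TOdd c Y := fun B _ x => by
  rw [h, whiskerLeft_zsmul, Preadditive.comp_zsmul, MonoidalCategory.whiskerLeft_id,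
    Category.comp_id, neg_one_smul]

theorem TOdd.of_tEq {u : Y ⟶ Y'} (hu : c.TEq u) : TOdd c Y ↔ TOdd c Y' := by
  have w : ∀ B : C, B ◁ (β_ Y Y).hom ≫ B ◁ (u ⊗ₘ u) = B ◁ (u ⊗ₘ u) ≫ B ◁ (β_ Y' Y').hom :=
    fun B => by
      rw [← MonoidalCategory.whiskerLeft_comp, ← MonoidalCategory.whiskerLeft_comp,
        BraidedCategory.braiding_naturality]
  refine ⟨fun h B d x => ?_, fun h B d x => (hu.tensorHom hu B d).1 ?_⟩
  · obtain ⟨x, rfl⟩ := (hu.tensorHom hu B d).2 x
    rw [Category.assoc, ← w, ← Category.assoc, h, Preadditive.neg_comp]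
  · dsimp only
    rw [Category.assoc, w, ← Category.assoc, h, Preadditive.neg_comp]

theorem TOdd.of_iso (h : TOdd c Y) (e : Y ≅ Y') : TOdd c Y' :=
  (TOdd.of_tEq (Cells.TEq.of_isIso e.hom)).1 h

end odd

theorem Th.of_loc {M : Type u} [Category.{v} M] [MonoidalCategory M] [SymmetricCategory M]
    [MonoidalClosed M] [HasZeroMorphisms M] [HasColimitsOfSize.{0, 0} M] [StabInput M]
    {C : Type u'} [Category.{v'} C] [Preadditive C] [MonoidalCategory C] [SymmetricCategory C]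
    [MonoidalPreadditive C] {st : M ⥤ C} [st.Monoidal] (H : L.Loc st)
    [P251.M.IsInv (st.obj (S M))] : Th st where
  htpy := H.htpy
  zero := H.zero
  ex₁ h _ y e := H.triStr.co₂ (H.tri_cone h) y e
  ex₂ h _ y e := H.triStr.co₃ (H.tri_cone h) y (by rw [reassoc_of% e, zero_comp])

variable {J : Type} [Idx J] [SphIdx J]

section sfree

variable {Γ : Type} [Group Γ] {Y Y' : EF J} {ρ : Γ → (Y ⟶ Y)}

/-- actions which are level-wise free after tensoring with any other action -/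
def SFree (ρ : Γ → (Y ⟶ Y)) : Prop :=
  ∀ (V : EF J) (τ : Γ → (V ⟶ V)), LevelFree (fun g => ρ g ⊗ₘ τ g)

theorem SFree.levelFree (h : SFree ρ) : LevelFree ρ :=
  (h _ fun _ => 𝟙 (𝟙_ _)).of_iso (ρ_ Y) fun g => by rw [tensorHom_id, rightUnitor_naturality]

theorem SFree.whiskerLeft (h : SFree ρ) (B : EF J) : SFree (fun g => B ◁ ρ g) := fun V τ =>
  (h (B ⊗ V) fun g => B ◁ τ g).of_iso ((α_ _ _ _).symm ≪≫ whiskerRightIso (β_ Y B) V) fun g => by
    simp only [Iso.trans_hom, Iso.symm_hom, whiskerRightIso_hom, Category.assoc]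
    rw [← id_tensorHom, associator_inv_naturality_assoc, ← tensorHom_id,
      tensorHom_comp_tensorHom, tensorHom_comp_tensorHom, BraidedCategory.braiding_naturality,
      id_tensorHom, Category.comp_id, Category.id_comp]

theorem SFree.comp (h : SFree ρ) {Γ' : Type} [Group Γ'] (φ : Γ' →* Γ)
    (hφ : Function.Injective φ) : SFree (fun g => ρ (φ g)) := fun V τ => by
  have := (h V (Function.extend φ τ fun _ => 𝟙 V)).comp φ hφ
  simpa only [hφ.extend_apply] using this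

theorem HasVec.sFree {ℓ : J ⥤ O} [ℓ.Braided] [IdxFun ℓ]
    (hz : ∀ {a b : J} (f : a ⟶ b), ℓ.map f = 0 → f = 0) {X : EF J} (h : HasVec ℓ X) (ι : Type)
    [Finite ι] : SFree (fun g : Equiv.Perm ι => pwE X g) := fun _ τ => h.levelFree hz τ

end sfree

variable {C : Type u} [Category.{v} C] [MonoidalCategory C] [SymmetricCategory C] [Preadditive C]
  [MonoidalPreadditive C] {Δ : Type} [AddCommGroup Δ]

/-- the input of the free lemma -/
structure Env (st : EF J ⥤ C) (c : Cells C Δ) (s : Δ) : Prop where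
  th : Th st
  surj : ∀ X : C, ∃ A : EF J, Nonempty (st.obj A ≅ X)
  susp : Nonempty (c.obj s ≅ st.obj (S (EF J)))
  rep : ∀ (d : Δ) (Q : EF J) (x : c.obj d ⟶ st.obj Q), ∃ (A : EF J) (u : c.obj d ⟶ st.obj A)
    (a : A ⟶ Q), IsCell A ∧ x = u ≫ st.map a

namespace Env

variable {st : EF J ⥤ C} [st.Braided] {c : Cells C Δ} {s : Δ} (E : Env st c s)
  {Γ : Type} [Group Γ] [Finite Γ] {Y : EF J} {ρ : Γ → (Y ⟶ Y)}

omit [MonoidalPreadditive C] [SphIdx J] in
theorem van_iff {B Q : EF J} {d : Δ} :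
    Van st (c.obj d) (B ⊗ Q) ↔ c.Van (st.obj B ⊗ st.obj Q) d :=
  ⟨fun h => Cells.Van.of_iso (Y := st.obj (B ⊗ Q)) h (Functor.Monoidal.μIso st B Q).symm,
    fun h => h.of_iso (Functor.Monoidal.μIso st B Q)⟩

include E

theorem van_susp (d : Δ) (n : ℕ) (X : EF J) (h : Van st (c.obj (d - (n + 1) • s)) X) :
    Van st (c.obj (d - n • s)) (X ⊗ S (EF J)) := by
  obtain ⟨e⟩ := E.susp
  refine van_iff.2 ((Cells.Van.tensor ?_).of_iso (whiskerLeftIso _ e))
  rwa [sub_sub, ← succ_nsmul]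

omit [MonoidalPreadditive C] [st.Braided] [SymmetricCategory C] [Finite Γ] in
theorem lifts (hf : LevelFree ρ) (d : Δ) (Q : EF J) (x : c.obj d ⟶ st.obj Q) :
    ∃ (A : EF J) (u : c.obj d ⟶ st.obj A) (a : A ⟶ Q), Lifts ρ A ∧ x = u ≫ st.map a := by
  obtain ⟨A, u, a, h1, h2⟩ := E.rep d Q x
  exact ⟨A, u, a, hf.lifts h1, h2⟩

/-- **Free lemma.** -/
theorem free (hρ : IsAct ρ) (hf : LevelFree ρ) {d : Δ}
    (h : ∀ n : ℕ, Van st (c.obj (d - n • s)) Y) (K : Subgroup Γ) : OVan st (c.obj d) K ρ := by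
  have := E.th.free (A := fun n => c.obj (d - n • s)) (E.van_susp d) hρ h (E.lifts hf _) K
  rwa [zero_smul, sub_zero] at this

/-- **General free lemma.** -/
theorem general_free (hρ : IsAct ρ) (hf : LevelFree ρ) {Z : Type} [Finite Z] [Nonempty Z]
    [MulAction Γ Z] {fam : ℕ → Subgroup Γ → Prop}
    (hfam : ∀ n K (z : Z), fam n K → fam (n + 1) (K ⊓ MulAction.stabilizer Γ z))
    {K₀ : Subgroup Γ} (h0 : ∀ z : Z, fam 0 (K₀ ⊓ MulAction.stabilizer Γ z)) {d : Δ}
    (h : ∀ n K, fam n K → OVan st (c.obj (d - n • s)) K ρ) : OVan st (c.obj d) K₀ ρ := by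
  have := E.th.general_free (A := fun n => c.obj (d - n • s)) (E.van_susp d) hfam h0 hρ h
    (E.lifts hf _)
  rwa [zero_smul, sub_zero] at this

/-- **Transfer** for powers of suspensions. -/
theorem transfer {ι : Type} [Finite ι] {X : EF J} (hX : SFree fun g : Equiv.Perm ι => pwE X g)
    (φ : Γ →* Equiv.Perm ι) (hφ : Function.Injective φ) (c₀ : ι → ℕ) (H : Subgroup Γ)
    (hH : ∀ g, g ∈ H ↔ ∀ i, c₀ (φ g i) = c₀ i) (hinv : Inv C H.index) (B : EF J) {Q Q' : EF J}
    {π : B ⊗ pw ι (X ⊗ S (EF J)) ⟶ Q} (hπ : IsOrb (fun g => B ◁ pwE (X ⊗ S (EF J)) (φ g)) π)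
    {π' : B ⊗ pw ι (X ⊗ S (EF J)) ⟶ Q'}
    (hπ' : ∀ g ∈ H, B ◁ pwE (X ⊗ S (EF J)) (φ g) ≫ π' = π') {q : Q' ⟶ Q} (hq : π' ≫ q = π)
    {d : Δ} (x : c.obj d ⟶ st.obj Q) : ∃ y, y ≫ st.map q = x := by
  let θ : (B ⊗ pw ι X) ⊗ (StabInput.J (EF J)).obj (sph ι) ≅ B ⊗ pw ι (X ⊗ S (EF J)) :=
    α_ _ _ _ ≪≫ whiskerLeftIso B (thetaS ι X).symm
  have hθ : ∀ g : Equiv.Perm ι, (B ◁ pwE X g ⊗ₘ (StabInput.J (EF J)).map (sphE g)) ≫ θ.hom =
      θ.hom ≫ B ◁ pwE (X ⊗ S (EF J)) g := fun g => by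
    have := pwE_thetaS X g
    rw [← Iso.eq_comp_inv, Category.assoc, ← Iso.inv_comp_eq] at this
    simp only [θ, Iso.trans_hom, whiskerLeftIso_hom, Iso.symm_hom, Category.assoc]
    rw [← id_tensorHom, associator_naturality_assoc, id_tensorHom,
      ← MonoidalCategory.whiskerLeft_comp, ← MonoidalCategory.whiskerLeft_comp, this]
  have key := E.th.transfer (A := fun n => c.obj (d - n • s)) (E.van_susp d)
    (((isAct_pwE X).comp_hom φ).map (tensorLeft B))
    (fun _ σ => E.lifts (((hX.comp φ hφ).whiskerLeft B) _ _) _) φ c₀ H hH hinv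
    (hπ.iso_comp θ fun g => hθ (φ g)) (π' := θ.hom ≫ π')
    (fun g hg => ((reassoc_of% (hθ (φ g))) π').trans (by rw [hπ' g hg])) (q := q)
    (by rw [Category.assoc, hq])
  rw [zero_smul, sub_zero] at key
  exact key x

end Env

end Vale.Agent.P257.F
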