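import Vale.Agent.P257.F.Level
import Vale.Agent.P257.D.GrFun

/-!
# P257, block F: frames; actions on `rep c ⊗ W` are level-wise free

For a faithful action of `Γ` on an object `c` of the index category, the action on `rep c ⊗ W` is
level-wise free: the frame of a point lies in the Stiefel manifold `St`, on which `Γ` acts freely.
-/

open CategoryTheory MonoidalCategory Limits Topology OnePoint Matrix

namespace Vale.Agent.P257.F

open Vale.Agent.P251.G Vale.Agent.P251.H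
open Vale.Agent.P257.D Vale.Agent.P257.D.EF
open Functor.LaxMonoidal Functor.OplaxMonoidal

section stiefel

/-- the Stiefel manifold of linear isometric embeddings -/
def St (a d : O) : Type := {f : OH a.El d.El // f.w = 0}

namespace St

variable {a b b' d : O}

instance : TopologicalSpace (St a d) := instTopologicalSpaceSubtype

instance : T2Space (St a d) := inferInstanceAs (T2Space (Subtype _))

instance : CompactSpace (St a d) := by
  refine isCompact_iff_compactSpace.mp ((OH.propFn_nrm.cpt 0).of_isClosed_subset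
    (isClosed_eq OH.continuous_w continuous_const) (fun f hf => ?_))
  change f.w ⬝ᵥ f.w ≤ 0
  rw [show f.w = 0 from hf, dotProduct_zero]

theorem ext_A {e e' : St a d} (h : ∀ u, e.1.A *ᵥ u = e'.1.A *ᵥ u) : e = e' :=
  Subtype.ext (OH.ext_ap fun u => by rw [OH.ap, OH.ap, h, e.2, e'.2])

/-- the frame of an embedding of `a ⊗ b` -/
def frm (f : OH (a ⊗ b).El d.El) : St a d :=
  ⟨OH.mk (f.A.submatrix id Sum.inl) 0 (fun u => by
      have h : ∀ u : a.El → ℝ, f.A.submatrix id Sum.inl *ᵥ u = f.A *ᵥ O.vec u 0 := fun u => by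
        funext k
        change ∑ i, f.A k (Sum.inl i) * u i = ∑ x : a.El ⊕ b.El, f.A k x * Sum.elim u 0 x
        simp [Fintype.sum_sum_type]
      rw [h]
      exact congrArg O.vfst (f.iso (O.vec u 0))) (mulVec_zero _), rfl⟩

theorem frm_A (f : OH (a ⊗ b).El d.El) (u : a.El → ℝ) :
    (frm f).1.A *ᵥ u = f.A *ᵥ O.vec u 0 := by
  funext k
  change ∑ i, f.A k (Sum.inl i) * u i = ∑ x : a.El ⊕ b.El, f.A k x * Sum.elim u 0 x
  simp [Fintype.sum_sum_type]

theorem continuous_frm : Continuous (frm : OH (a ⊗ b).El d.El → St a d) := by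
  have h : Continuous (fun f : OH (a ⊗ b).El d.El => (frm f).1) :=
    OH.continuous_of (OH.continuous_A.matrix_submatrix id Sum.inl) continuous_const
  exact h.subtype_mk _

theorem A_mulVec {ι κ : Type} [Fintype ι] [Fintype κ] (f : OH ι κ) (u : ι → ℝ) :
    f.A *ᵥ u = f.ap u - f.ap 0 := by rw [OH.ap_zero, OH.ap, add_sub_cancel_right]

theorem ap_sub {ι κ : Type} [Fintype ι] [Fintype κ] (f : OH ι κ) (u v : ι → ℝ) :
    f.ap u - f.ap v = f.A *ᵥ (u - v) := by rw [OH.ap, OH.ap, add_sub_add_right_eq_sub, mulVec_sub]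

theorem vec_sub (u u' : a.El → ℝ) (v v' : b.El → ℝ) :
    O.vec u v - O.vec u' v' = O.vec (u - u') (v - v') := by
  funext x; rcases x with x | x <;> rfl

theorem frm_tens {a' : O} (g : OH a.El a'.El) (v : OH b.El b'.El) (f : OH (a' ⊗ b').El d.El)
    (u : a.El → ℝ) : (frm ((O.tens g v).comp f)).1.A *ᵥ u = (frm f).1.A *ᵥ (g.A *ᵥ u) := by
  rw [frm_A, frm_A, A_mulVec, OH.comp_ap, OH.comp_ap, ap_sub, ← O.vec_zero, O.tens_ap_vec,
    O.tens_ap_vec, vec_sub, ← A_mulVec, sub_self]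

/-- the frame of a morphism -/
def frP (f : a ⊗ b ⟶ d) : OnePoint (St a d) := OnePoint.map frm (O.toPt f)

theorem frP_mk (f : OH (a ⊗ b).El d.El) : frP (O.mk f) = (frm f : OnePoint (St a d)) := rfl

theorem frP_whiskerLeft (v : b ⟶ b') (f : a ⊗ b' ⟶ d) (h : a ◁ v ≫ f ≠ 0) :
    frP (a ◁ v ≫ f) = frP f := by
  rcases O.hom_cases v with rfl | ⟨v, rfl⟩
  · simp at h
  rcases O.hom_cases f with rfl | ⟨f, rfl⟩
  · simp at h
  rw [O.whiskerLeft_mk, O.mk_comp, frP_mk, frP_mk]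
  congr 1
  exact ext_A fun u => by rw [frm_tens, OH.ofEquiv_A_mulVec]; rfl

theorem isClosed_frP :
    IsClosed {p : OnePoint (OH (a ⊗ b).El d.El) × OnePoint (St a d) |
      p.1 ≠ ∞ → p.2 = OnePoint.map frm p.1} := by
  rw [← isOpen_compl_iff]
  have h : IsOpen {p : OH (a ⊗ b).El d.El × OnePoint (St a d) | p.2 ≠ (frm p.1 : OnePoint _)} :=
    isOpen_ne_fun continuous_snd
      (OnePoint.continuous_coe.comp (continuous_frm.comp continuous_fst))
  have h2 := (OnePoint.isOpenEmbedding_coe.prodMap IsOpenEmbedding.id).isOpenMap _ h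
  convert h2 using 1
  ext ⟨x, e⟩
  induction x using OnePoint.rec with
  | infty => simp
  | coe x => simp

end St

end stiefel

variable {J : Type} [Idx J] [SphIdx J] {Γ : Type} [Group Γ]

/-- The data of a right action on an object of the index category which is faithful in `O`. -/
structure IdxAct (ℓ : J ⥤ O) {c : J} (β : Γ → (c ⟶ c)) : Prop where
  one : β 1 = 𝟙 c
  mul : ∀ g h, β (g * h) = β g ≫ β h
  faith : ∀ g, ℓ.map (β g) = 𝟙 _ → g = 1

namespace IdxAct

variable {ℓ : J ⥤ O} {c : J} {β : Γ → (c ⟶ c)} (h : IdxAct ℓ β)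

include h

omit [SphIdx J] in
theorem isIso (g : Γ) : IsIso (ℓ.map (β g)) :=
  ⟨ℓ.map (β g⁻¹), by rw [← ℓ.map_comp, ← h.mul, mul_inv_cancel, h.one, ℓ.map_id],
    by rw [← ℓ.map_comp, ← h.mul, inv_mul_cancel, h.one, ℓ.map_id]⟩

/-- the isometry of a group element -/
noncomputable def oh (g : Γ) : OH (ℓ.obj c).El (ℓ.obj c).El :=
  haveI := h.isIso g
  O.isoOH (ℓ.map (β g))

omit [SphIdx J] in
theorem mk_oh (g : Γ) : O.mk (h.oh g) = ℓ.map (β g) :=
  haveI := h.isIso g
  O.mk_isoOH _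

omit [SphIdx J] in
theorem oh_w (g : Γ) : (h.oh g).w = 0 :=
  haveI := h.isIso g
  O.isoOH_w _

omit [SphIdx J] in
theorem oh_one : h.oh 1 = OH.ofEquiv (Equiv.refl _) :=
  O.mk_injective (by rw [mk_oh, h.one, ℓ.map_id, O.id_eq])

omit [SphIdx J] in
theorem oh_mul (g g' : Γ) : h.oh (g * g') = (h.oh g).comp (h.oh g') :=
  O.mk_injective (by rw [← O.mk_comp, mk_oh, mk_oh, mk_oh, h.mul, ℓ.map_comp])

/-- the action on frames -/
@[reducible] noncomputable def mulAction (d : O) : MulAction Γ (St (ℓ.obj c) d) where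
  smul g e := ⟨(h.oh g).comp e.1, by rw [OH.comp_w, h.oh_w, OH.ap_zero, e.2]⟩
  one_smul e := Subtype.ext (OH.ext_ap fun u => by
    change ((h.oh 1).comp e.1).ap u = _
    rw [OH.comp_ap, oh_one, O.refl_ap])
  mul_smul g g' e := Subtype.ext (OH.ext_ap fun u => by
    change ((h.oh (g * g')).comp e.1).ap u = ((h.oh g).comp ((h.oh g').comp e.1)).ap u
    simp only [oh_mul, OH.comp_ap])

/-- the free space of frames -/
noncomputable def free (d : O) : FreeSp Γ :=
  letI := h.mulAction d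
  { E := St (ℓ.obj c) d
    cont := ⟨fun g => Continuous.subtype_mk
      (OH.continuous_comp continuous_const continuous_subtype_val) _⟩
    free := fun g e he => h.faith g (by
      rw [← h.mk_oh, O.id_eq]
      refine O.mk_ext fun u => e.1.ap_injective ?_
      rw [O.refl_ap, ← OH.comp_ap]
      exact congrArg (fun x : St (ℓ.obj c) d => x.1.ap u) he) }

omit [SphIdx J] in
theorem frP_act {b d : O} (g : Γ) (f : ℓ.obj c ⊗ b ⟶ d) :
    St.frP (ℓ.map (β g) ▷ b ≫ f) = LC.app ((h.free d).σ g) (St.frP f) := by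
  rcases O.hom_cases f with rfl | ⟨f, rfl⟩
  · rw [comp_zero]
    exact (LC.app_infty ((h.free d).σ g)).symm
  rw [← h.mk_oh, O.whiskerRight_mk, O.mk_comp, St.frP_mk, St.frP_mk]
  refine congrArg OnePoint.some (St.ext_A fun u => ?_)
  rw [St.frm_tens]
  exact mulVec_mulVec _ _ _

end IdxAct

variable (ℓ : J ⥤ O) [ℓ.Monoidal] [IdxFun ℓ]

omit [SphIdx J] [IdxFun ℓ] in
theorem μ_comp_eq_zero (hz : ∀ {a b : J} (f : a ⟶ b), ℓ.map f = 0 → f = 0) {a b d : J}
    {w : a ⊗ b ⟶ d} (h : μ ℓ a b ≫ ℓ.map w = 0) : w = 0 :=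
  hz w (by rw [← Functor.Monoidal.δ_μ_assoc ℓ a b (ℓ.map w), h, comp_zero])

/-- the frame of a point of `rep c ⊗ W` -/
noncomputable def frJ {c a b d : J} (x : OnePoint ((rep c).obj a)) (w : a ⊗ b ⟶ d) :
    OnePoint (St (ℓ.obj c) (ℓ.obj d)) :=
  St.frP (μ ℓ c b ≫ ℓ.map (unpr x ▷ b ≫ w))

omit [SphIdx J] in
theorem br_eq_infty {c a b d : J} {W : EF J} {x : OnePoint ((rep c).obj a)} {w : a ⊗ b ⟶ d}
    (h : unpr x ▷ b ≫ w = 0) (y : OnePoint (W.obj b)) : br w x y = ∞ := by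
  obtain ⟨x, rfl⟩ := pr_surjective x
  rw [unpr_pr] at h
  have := br_nat x (𝟙 b) w (pr (𝟙 c)) y
  rw [tensorHom_id, h, br_zero, rep_act, Category.id_comp, act_id] at this
  exact this.symm

variable {ℓ}

/-- **Actions on `rep c ⊗ W` are level-wise free.** -/
theorem levelFree_rep (hz : ∀ {a b : J} (f : a ⟶ b), ℓ.map f = 0 → f = 0) {c : J}
    {β : Γ → (c ⟶ c)} (h : IdxAct ℓ β) {W : EF J} (ρ : Γ → (W ⟶ W)) :
    LevelFree (fun g => repMap (β g) ⊗ₘ ρ g) := by
  intro d
  let E := h.free (ℓ.obj d)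
  let Φ : DayFam (rep c) W d (OnePoint (((rep c ⊗ W) ⊗ (jC J).obj E.lc).obj d)) ∞ :=
    { F := fun w x y => sec (Y := rep c ⊗ W) (E := E.lc) (br w x y) (frJ ℓ x w)
      h1 := fun w y => by rw [br_infty_left]; exact sec_infty_left _
      h2 := fun w x => by rw [br_infty_right]; exact sec_infty_left _
      h3 := fun {a b a' b'} u v w x y => by
        rw [← br_nat]
        by_cases h0 : unpr x ▷ b ≫ (u ⊗ₘ v) ≫ w = 0
        · rw [br_eq_infty h0]
          exact (sec_infty_left _).trans (sec_infty_left _).symm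
        · congr 1
          have e : μ ℓ c b ≫ ℓ.map (unpr x ▷ b ≫ (u ⊗ₘ v) ≫ w) = ℓ.obj c ◁ ℓ.map v ≫
              μ ℓ c b' ≫ ℓ.map (unpr ((rep c).act u x) ▷ b' ≫ w) := by
            rw [μ_natural_right_assoc, ← ℓ.map_comp, unpr_rep_act, comp_whiskerRight,
              Category.assoc, whisker_exchange_assoc, tensorHom_def', Category.assoc]
          rw [frJ, frJ, e]
          exact St.frP_whiskerLeft _ _ (fun h1 => h0 (μ_comp_eq_zero ℓ hz (e.trans h1))) }
  refine ⟨E, ⟨dayElim Φ, dayElim_infty Φ, fun K z hz' => ?_⟩, ?_, fun g => ?_⟩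
  · refine day_plot (W := ((rep c ⊗ W) ⊗ (jC J).obj E.lc).obj d) _
      (fun K a b w x y hw hx hy => ?_) hz'
    have e0 : (fun k => dayElim Φ (br (w k) (x k) (y k))) = fun k =>
        sec (Y := rep c ⊗ W) (E := E.lc) (br (w k) (x k) (y k)) (frJ ℓ (x k) (w k)) :=
      funext fun k => dayElim_br Φ _ _ _
    refine (congrArg _ e0).mpr ?_
    have hp : Idx.plot K (fun k => μ ℓ c b ≫ ℓ.map (unpr (x k) ▷ b ≫ w k)) :=
      Idx.plot_comp (Idx.plot_const _ _) (IdxFun.map_plot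
        (Idx.plot_comp (Idx.plot_whiskerRight (unpr_plot hx) b) hw))
    refine sec_plot_of_isClosed (Y := rep c ⊗ W) (E := E.lc) (br_plot hw hx hy)
      (fun k => O.toPt (μ ℓ c b ≫ ℓ.map (unpr (x k) ▷ b ≫ w k)) ≠ ∞) (fun k hk => ?_) ?_
    · exact br_eq_infty (μ_comp_eq_zero ℓ hz (not_not.mp hk)) _
    · exact St.isClosed_frP.preimage
        (((O.plot_iff.mp hp).comp continuous_fst).prodMk continuous_snd)
  · refine PQ.hom_ext' fun z => ?_
    obtain ⟨a, b, w, x, y, rfl⟩ := exists_br z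
    change fn (jpr (toPt E.lc) (rep c ⊗ W)) (dayElim Φ (br w x y)) = br w x y
    rw [dayElim_br]
    rcases O.hom_cases (μ ℓ c b ≫ ℓ.map (unpr x ▷ b ≫ w)) with h0 | ⟨f, hf⟩
    · have := br_eq_infty (μ_comp_eq_zero ℓ hz h0) y
      change fn _ (sec (Y := rep c ⊗ W) (E := E.lc) (br w x y) _) = _
      rw [this]
      exact (congrArg _ (sec_infty_left _)).trans (fn_infty _ _)
    · change fn _ (sec (Y := rep c ⊗ W) (E := E.lc) (br w x y)
        (St.frP (μ ℓ c b ≫ ℓ.map (unpr x ▷ b ≫ w)))) = _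
      rw [hf]
      exact fn_jpr_sec (Y := rep c ⊗ W) (E := E.lc) _ _
  · refine PQ.hom_ext' fun z => ?_
    obtain ⟨a, b, w, x, y, rfl⟩ := exists_br z
    have e1 : fn (repMap (β g) ⊗ₘ ρ g) (br w x y) = br w (fn (repMap (β g)) x) (fn (ρ g) y) := by
      rw [br_eq, br_eq]
      exact (fn_act _ _ _).trans (congrArg _ (tensorHom_tm _ _ _ _))
    change dayElim Φ (fn (repMap (β g) ⊗ₘ ρ g) (br w x y)) =
      fn ((repMap (β g) ⊗ₘ ρ g) ⊗ₘ (jC J).map (E.σ g)) (dayElim Φ (br w x y))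
    rw [e1, dayElim_br, dayElim_br]
    refine Eq.trans ?_ (fn_tensorHom_sec _ _ _ _).symm
    rw [e1]
    refine congrArg (sec (Y := rep c ⊗ W) (E := E.lc) _) ?_
    obtain ⟨x, rfl⟩ := pr_surjective x
    rw [frJ, frJ, fn_repMap_pr, unpr_pr, unpr_pr, ← h.frP_act, μ_natural_left_assoc, ← ℓ.map_comp,
      comp_whiskerRight, Category.assoc]

end Vale.Agent.P257.F
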