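import Vale.Agent.P257.T.GrFr
import Vale.Agent.P257.W.World
import Vale.Agent.P257.Z.Base
import Vale.Agent.P257.E.Dh
import Vale.Agent.P257.K.KlOf
import Vale.Agent.P257.L.SCLoc

/-!
# P257, block F: the stable properties of the cells `Fr_! X ⊗ (S ^ ρbar) ^ i`

* `RM ι`: the sphere of the reduced permutation representation in `Action MM (Perm ι)`;
* `FW ι lam X i = FrL X ⊗ tpow (RM ι) i`;
* `nf_FW`: the underlying object is a framed cell; `sg_FW`: the sign; `isInv_FW`: invertibility.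
-/

open CategoryTheory MonoidalCategory Limits

namespace Vale.Agent.P257.F

open Vale.Agent.P257.D Vale.Agent.P257.D.EF Vale.Agent.P257.A Vale.Agent.P257.M
open Vale.Agent.P257.C Vale.Agent.P257.K Vale.Agent.P257.W Vale.Agent.P257.T
open Vale.Agent.P257.Z (Sg RA VA pd)
open Vale.Agent.P257.E (act mkAct mkHom triv mapA JA repA sphQ lamQ)
open Vale.Agent.P251.G (LC)
open Vale.Agent.P251.G.LC (RR)
open Vale.Agent.P251.H (StabInput tpow)
open Vale.Agent.P251.H.StabInput (S CI J)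
open Vale.Agent.P251.M (IsInv)
open Equiv (Perm)

universe v u v' u'

section sg

variable {E : Type u} [Category.{v} E] [Preadditive E] [MonoidalCategory E]
  [MonoidalPreadditive E] {ι : Type} [DecidableEq ι] {ε ε' : ℤˣ}

theorem sg_tpow {Y : Action E (Perm ι)} (h : Sg ε Y) : ∀ n : ℕ, Sg (ε ^ n) (tpow Y n)
  | 0 => (pow_zero ε).symm ▸ Sg.of_act (Y := 𝟙_ (Action E (Perm ι))) fun _ => rfl
  | n + 1 => pow_succ' ε n ▸ h.tensor (sg_tpow h n)

theorem sg_powG [SymmetricCategory E] [Finite ι] {X : E} (h : HasSign X ε) :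
    Sg ε ((powG E (Perm ι) ι).obj X) := fun _ _ n => (act_powG _ _ _ _).trans (h.swap n)

variable {M : Type u'} [Category.{v'} M] [MonoidalCategory M] (F : M ⥤ E)

omit [MonoidalCategory E] [MonoidalPreadditive E] [MonoidalCategory M] in
theorem sg_map_triv (X : M) : Sg 1 ((mapA F (Perm ι)).obj ((triv _).obj X)) :=
  Sg.of_act fun _ => F.map_id _

variable {F} {A B : Action M (Perm ι)}

omit [MonoidalCategory E] [MonoidalPreadditive E] [MonoidalCategory M] in
theorem sg_map_iso (h : Sg ε ((mapA F _).obj A)) (e : A ≅ B) : Sg ε ((mapA F _).obj B) :=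
  h.of_iso ((mapA F _).mapIso e)

theorem sg_map_tensor [F.Monoidal] (h : Sg ε ((mapA F _).obj A)) (k : Sg ε' ((mapA F _).obj B)) :
    Sg (ε * ε') ((mapA F _).obj (A ⊗ B)) :=
  (h.tensor k).of_iso (Functor.Monoidal.μIso (mapA F _) A B)

theorem sg_map_tpow [F.Monoidal] (h : Sg ε ((mapA F _).obj A)) (n : ℕ) :
    Sg (ε ^ n) ((mapA F _).obj (tpow A n)) :=
  (sg_tpow h n).of_iso (tpowMap (mapA F _) A n).symm

theorem sg_map_powG [SymmetricCategory E] [SymmetricCategory M] [F.Braided] [Finite ι] {X : M}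
    (h : HasSign (F.obj X) ε) : Sg ε ((mapA F _).obj ((powG M (Perm ι) ι).obj X)) :=
  (sg_powG h).of_iso (asIso (powLax (Perm ι) ι F X))

end sg

section inv

variable {C : Type u} [Category.{v} C] [MonoidalCategory C] [SymmetricCategory C]

theorem isInv_left (A B : C) [IsInv (A ⊗ B)] : IsInv A :=
  IsInv.of_inverse ((α_ A B _).symm ≪≫ (tensorLeft (A ⊗ B)).objObjPreimageIso (𝟙_ C))

theorem isInv_cell {Δ : Type} [AddCommGroup Δ] (c : Cells C Δ) (d : Δ) : IsInv (c.obj d) :=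
  IsInv.of_inverse (c.inv' d)

variable {M : Type u'} [Category.{v'} M] [MonoidalCategory M] (F : M ⥤ C) [F.Monoidal]

omit [SymmetricCategory C] in
theorem isInv_map_tensor {A B : M} (h : IsInv (F.obj A)) (k : IsInv (F.obj B)) :
    IsInv (F.obj (A ⊗ B)) := IsInv.of_iso (Functor.Monoidal.μIso F A B)

omit [SymmetricCategory C] in
theorem isInv_map_tpow {A : M} (h : IsInv (F.obj A)) (n : ℕ) : IsInv (F.obj (tpow A n)) :=
  have := Z.isInv_tpow (F.obj A) n
  IsInv.of_iso (tpowMap F A n).symm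

omit [SymmetricCategory C] [MonoidalCategory M] [F.Monoidal] in
theorem isInv_map_iso {A B : M} (h : IsInv (F.obj A)) (e : A ≅ B) : IsInv (F.obj B) :=
  IsInv.of_iso (F.mapIso e)

theorem isInv_of_map {A B : M} (f : A ⊗ B ⟶ 𝟙_ M) (h : IsIso (F.map f)) :
    IsInv (F.obj A) ∧ IsInv (F.obj B) :=
  have e := Functor.Monoidal.μIso F A B ≪≫ asIso (F.map f) ≪≫ (Functor.Monoidal.εIso F).symm
  ⟨IsInv.of_inverse e, IsInv.of_inverse' e⟩

end inv

/-- tensor powers of an isomorphism -/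
def tpowIsoOf {C : Type u} [Category.{v} C] [MonoidalCategory C] {A B : C} (e : A ≅ B) :
    ∀ n : ℕ, tpow A n ≅ tpow B n
  | 0 => Iso.refl _
  | n + 1 => e ⊗ᵢ tpowIsoOf e n

section iso

variable (G : Type) [Group G] (ι : Type) [Finite ι] [Nonempty ι] [MulAction G ι] (lam : ℕ)

/-- splitting off the degree -/
noncomputable def atIso (c : O) (g : Gam) : (frAct G ι lam).at' ⟨c, g⟩ ≅
    (mapA (Gr.inc O (0 : Gam)) G).obj ((powAct O G ι).at' c) ⊗
      (triv G).obj (⟨𝟙_ O, scD (Nat.card ι) lam g⟩ : JG) :=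
  Action.mkIso (Gr.isoMk (ρ_ (pw ι c)).symm (zero_add _).symm) fun s => Gr.hom_ext (by
    change pwE c (MulAction.toPerm s : ι ≃ ι) ≫ (ρ_ (pw ι c)).inv =
      (ρ_ (pw ι c)).inv ≫ (pwE c (MulAction.toPerm s : ι ≃ ι) ⊗ₘ 𝟙 (𝟙_ O))
    rw [tensorHom_id, rightUnitor_inv_naturality])

omit [Nonempty ι] in
/-- powers in degree zero -/
noncomputable def atPow (c : O) : (powAct JG G ι).at' ⟨c, 0⟩ ≅
    (mapA (Gr.inc O (0 : Gam)) G).obj ((powAct O G ι).at' c) :=
  Action.mkIso (Gr.isoMk (pb fun _ : ι => (⟨c, 0⟩ : JG))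
    ((pw_deg (⟨c, 0⟩ : JG)).trans (smul_zero _))) fun s =>
      Gr.hom_ext (bigEquiv_pb (MulAction.toPerm s : ι ≃ ι) fun _ => (⟨c, 0⟩ : JG))

/-- `Fr_!` of a representable -/
noncomputable def frRepA (c : O) (g : Gam) : (FrL G ι lam).obj (rep ⟨c, g⟩) ≅
    repA (Gr.inc O (0 : Gam)) ((powAct O G ι).at' c) ⊗
      (triv G).obj (rp (scD (Nat.card ι) lam g)) :=
  lanGRep _ _ ≪≫ repGIso (atIso G ι lam c g) ≪≫ (repGTensor _ _).symm ≪≫
    whiskerLeftIso _ (repGTriv _)

omit [Nonempty ι] in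
/-- the power of a representable -/
noncomputable def powRepA (c : O) : (powG MM G ι).obj (rep ⟨c, 0⟩) ≅
    repA (Gr.inc O (0 : Gam)) ((powAct O G ι).at' c) :=
  powRep G ι _ ≪≫ repGIso (atPow G ι c)

/-- `Fr_!` of the circle -/
noncomputable def frS : (FrL G ι lam).obj (S MM) ≅ (triv G).obj (S MM) := lanGJIso _ RR

/-- `Fr_!` of a framed cell -/
noncomputable def frCell {X : MM} {c : O} {g : Gam} {n : ℕ}
    (e : X ≅ rep ⟨c, g⟩ ⊗ tpow (S MM) n) : (FrL G ι lam).obj X ≅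
    (FrL G ι lam).obj (rep ⟨c, g⟩) ⊗ tpow ((FrL G ι lam).obj (S MM)) n :=
  (FrL G ι lam).mapIso e ≪≫ (Functor.Monoidal.μIso _ _ _).symm ≪≫
    whiskerLeftIso _ (tpowMap _ _ n)

end iso

variable (ι : Type) [Finite ι] [Nonempty ι] (lam : ℕ)

/-- the sphere of the reduced permutation representation -/
noncomputable abbrev RM : Action MM (Perm ι) := (JA (Perm ι) MM).obj (RA ι)

/-- the equivariant cells -/
noncomputable abbrev FW (X : MM) (i : ℕ) : Action MM (Perm ι) :=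
  (FrL (Perm ι) ι lam).obj X ⊗ tpow (RM ι) i

variable {ι lam} {X : MM} {c : O} {g : Gam} {n : ℕ}

section sign

variable [DecidableEq ι] {p : ℕ}

theorem sg_RM : Sg (-1) ((mapA (sE p) _).obj (RM ι)) := fun a b n =>
  have : IsInv ((J MM ⋙ sE p).obj RR) := inferInstanceAs (IsInv (SC.SS (De p)))
  Z.sg_RA (SC.sphFun (De p)) a b n

omit [Nonempty ι] in
theorem sg_repA (c : O) : Sg ((-1) ^ Fintype.card c.El) ((mapA (sE p) _).obj
    (repA (Gr.inc O (0 : Gam)) ((powAct O (Perm ι) ι).at' c))) := by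
  obtain ⟨e⟩ := (NF0.rep c 0).iso p
  refine sg_map_iso (sg_map_powG ?_) (powRepA _ ι c)
  have h := (hasSign_cE _ _).of_iso e.symm
  rwa [Int.negOnePow_neg, Int.negOnePow_def, zpow_natCast] at h

theorem sg_FrL (e : X ≅ rep ⟨c, g⟩ ⊗ tpow (S MM) n) :
    Sg ((-1) ^ Fintype.card c.El) ((mapA (sE p) _).obj ((FrL (Perm ι) ι lam).obj X)) := by
  have h := sg_map_tensor (sg_map_iso (sg_map_tensor (sg_repA (ι := ι) (p := p) c)
    (sg_map_triv _ _)) (frRepA _ ι lam c g).symm)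
    (sg_map_tpow (sg_map_iso (sg_map_triv (sE p) _) (frS (Perm ι) ι lam).symm) n)
  rw [one_pow, mul_one, mul_one] at h
  exact sg_map_iso h (frCell _ ι lam e).symm

/-- **the sign** -/
theorem sg_FW (e : X ≅ rep ⟨c, g⟩ ⊗ tpow (S MM) n) (i : ℕ) :
    Sg ((-1) ^ (Fintype.card c.El + i)) ((mapA (sE p) _).obj (FW ι lam X i)) :=
  pow_add (-1 : ℤˣ) _ i ▸ sg_map_tensor (sg_FrL e) (sg_map_tpow sg_RM i)

end sign

section invertible

variable {G : Type} [Group G] (D : Stab (Action MM G))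

/-- all representation spheres are invertible -/
def LamInv : Prop := ∀ Q : Action O G, IsIso ((st D).map (lamQ (Gr.inc O (0 : Gam)) Q))

variable {D}

theorem isInv_triv_rp (g : Gam) : IsInv ((st D).obj ((triv G).obj (rp g))) :=
  have : IsInv (rp g) := isInv_cell rpCells g
  K.isInv_map (triv G ⋙ st D) (rp g)

theorem isInv_triv_S : IsInv ((st D).obj ((triv G).obj (S MM))) :=
  inferInstanceAs (IsInv (SC.SS D))

namespace LamInv

variable (h : LamInv D)
include h

theorem repA (Q : Action O G) : IsInv ((st D).obj (repA (Gr.inc O (0 : Gam)) Q)) :=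
  (isInv_of_map _ _ (h Q)).1

theorem sphQ (Q : Action O G) : IsInv ((st D).obj (sphQ JG Q)) := (isInv_of_map _ _ (h Q)).2

theorem frL [MulAction G ι] {k : ℤ} (hX : NF0 X g k) :
    IsInv ((st D).obj ((FrL G ι lam).obj X)) := by
  obtain ⟨c, n, -, ⟨e⟩⟩ := hX
  exact isInv_map_iso _ (isInv_map_tensor _ (isInv_map_iso _ (isInv_map_tensor _ (h.repA _)
    (isInv_triv_rp _)) (frRepA G ι lam c g).symm) (isInv_map_tpow _
      (isInv_map_iso _ isInv_triv_S (frS G ι lam).symm) n)) (frCell G ι lam e).symm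

end LamInv

variable {D : Stab (Action MM (Perm ι))} (h : LamInv D)
include h

omit [Nonempty ι] in
theorem LamInv.va : IsInv ((st D).obj ((JA (Perm ι) MM).obj (VA ι))) :=
  isInv_map_iso _ (h.sphQ (E.permRep (Perm ι) ι))
    ((JA (Perm ι) MM).mapIso (E.sphGF (Perm ι) ι ≪≫ (E.fnGF ι).symm))

theorem LamInv.rm : IsInv ((st D).obj (RM ι)) :=
  have : IsInv ((st D).obj (RM ι) ⊗ (st D).obj ((JA (Perm ι) MM).obj ((triv _).obj RR))) :=
    isInv_map_iso _ h.va ((JA (Perm ι) MM).mapIso (Z.spl ι).symm ≪≫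
      (Functor.Monoidal.μIso (JA (Perm ι) MM) _ _).symm)
  isInv_left _ ((st D).obj ((JA (Perm ι) MM).obj ((triv _).obj RR)))

/-- **invertibility** -/
theorem LamInv.fw {k : ℤ} (hX : NF0 X g k) (i : ℕ) : IsInv ((st D).obj (FW ι lam X i)) :=
  isInv_map_tensor _ (h.frL hX) (isInv_map_tpow _ h.rm i)

end invertible

section cell

theorem card_evL {κ : Type} (c : O) : ∀ l : List κ,
    Fintype.card (evL (fun _ : κ => c) l).El = l.length * Fintype.card c.El
  | [] => (Fintype.card_eq_zero (α := (𝟙_ O).El)).trans (zero_mul _).symm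
  | _ :: l => (card_tensor c _).trans (by rw [card_evL c l, List.length_cons]; ring)

theorem card_pw (κ : Type) [Finite κ] (c : O) :
    Fintype.card (pw κ c).El = Nat.card κ * Fintype.card c.El := by
  refine (card_evL c _).trans ?_
  rw [enum, Finset.length_toList, @Nat.card_eq_fintype_card κ (Fintype.ofFinite κ)]
  rfl

theorem nf0_tpowV {G : Type} [Group G] {A : Action MM G} {k : ℤ} (h : NF0 A.V g k) (i : ℕ) :
    NF0 (tpow A i).V (i • g) (i * k) := (h.tpow i).of_iso (E.tpowIso A i).symm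

theorem nf0_RM : NF0 (RM ι).V 0 (pd ι) :=
  (NF0.tpow_S _).of_iso ((J MM).mapIso (LC.ofHomeo (X := (RA ι).V)
    (Y := LC.of (({Classical.arbitrary ι}ᶜ : Set ι) → ℝ)) (Z.chi _)) ≪≫ Z.sphIso (J MM)
      ((Nat.card_coe_set_eq _).trans (Z.ncard_compl_singleton _))).symm

theorem nf_FrL {G : Type} [Group G] [MulAction G ι] (hc : Nonempty c.El)
    (e : X ≅ rep ⟨c, g⟩ ⊗ tpow (S MM) n) : NF ((FrL G ι lam).obj X).V (scD (Nat.card ι) lam g)
      (n - Nat.card ι * Fintype.card c.El) :=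
  ⟨pw ι c, n, Fintype.card_pos_iff.1 (by
      rw [card_pw]
      exact Nat.mul_pos Nat.card_pos (Fintype.card_pos_iff.2 hc)), by
      rw [card_pw]
      push_cast
      ring,
    ⟨(Action.forget _ G).mapIso (frCell G ι lam e ≪≫ whiskerRightIso (lanGRep _ _) _) ≪≫
      whiskerLeftIso _
        (E.tpowIso _ n ≪≫ tpowIsoOf ((Action.forget _ G).mapIso (frS G ι lam)) n)⟩⟩

/-- **the underlying cell** -/
theorem nf_FW (hc : Nonempty c.El) (e : X ≅ rep ⟨c, g⟩ ⊗ tpow (S MM) n) (i : ℕ) :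
    NF (FW ι lam X i).V (scD (Nat.card ι) lam g)
      (n - Nat.card ι * Fintype.card c.El + i * pd ι) := by
  have h := (nf_FrL (G := Perm ι) (ι := ι) (lam := lam) hc e).tensor (nf0_tpowV (nf0_RM (ι := ι)) i)
  rwa [smul_zero, add_zero] at h

end cell

section Dh

variable (p : ℕ) (ι)

/-- the equivariant stabilization datum -/
noncomputable abbrev DH : Stab (Action MM (Perm ι)) := E.Dh (Gr.inc O (0 : Gam)) p ι

/-- the equivariant stabilization functor -/
noncomputable abbrev sH : Action MM (Perm ι) ⥤ SC (DH ι p) := st (DH ι p)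

omit [Nonempty ι] in
theorem lamInv_DH : LamInv (DH ι p) := fun _ => inferInstance

instance isInv_RM : IsInv ((sH ι p).obj (RM ι)) := (lamInv_DH ι p).rm

variable {ι}

theorem isInv_FW {k : ℤ} (hX : NF0 X g k) (i : ℕ) : IsInv ((sH ι p).obj (FW ι lam X i)) :=
  (lamInv_DH ι p).fw hX i

variable [Fact p.Prime] [hι : Fact (Nat.card ι = p)]

variable (ι) in
/-- the restriction -/
noncomputable abbrev RH : SC (DH ι p) ⥤ Action (EE p) (Perm ι) := E.Rh (Gr.inc O (0 : Gam)) p ι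

omit [Nonempty ι] in
theorem RH_st (A : Action MM (Perm ι)) :
    (RH ι p).obj ((sH ι p).obj A) = (mapA (sE p) _).obj A := rfl

/-- **FRX**, stable half -/
theorem frx [DecidableEq ι] {k : ℤ} (hc : Nonempty c.El) (hn : (n : ℤ) = Fintype.card c.El + k)
    (e : X ≅ rep ⟨c, g⟩ ⊗ tpow (S MM) n) (i : ℕ) {j : ℤ} (hj : (i : ℤ) = Fintype.card c.El + j) :
    NF (FW ι lam X i).V (scD p lam g) (k + (p - 1) * j) ∧
      Sg j.negOnePow ((RH ι p).obj ((sH ι p).obj (FW ι lam X i))) ∧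
      IsInv ((sH ι p).obj (FW ι lam X i)) := by
  refine ⟨?_, ?_, isInv_FW p ⟨c, n, hn, ⟨e⟩⟩ i⟩
  · have h := nf_FW (ι := ι) (lam := lam) hc e i
    have h1 : ((pd ι : ℕ) : ℤ) = p - 1 := by
      rw [pd, hι.out, Nat.cast_pred (Fact.out : p.Prime).pos]
    rwa [h1, hι.out, hn, hj, show Fintype.card c.El + k - (p : ℤ) * Fintype.card c.El +
      (Fintype.card c.El + j) * (p - 1) = k + (p - 1) * j by ring] at h
  · have h := sg_FW (ι := ι) (lam := lam) (p := p) e i
    rwa [← zpow_natCast, ← Int.negOnePow_def, Nat.cast_add, hj, ← add_assoc, Int.negOnePow_add,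
      Int.negOnePow_even _ ⟨_, rfl⟩, one_mul] at h

/-- **FRX**, stable half, without the data -/
theorem exists_frx [DecidableEq ι] {k : ℤ} (h : NF X g k) : ∃ m : ℕ, ∀ (i : ℕ) (j : ℤ),
    (i : ℤ) = m + j → NF (FW ι lam X i).V (scD p lam g) (k + (p - 1) * j) ∧
      Sg j.negOnePow ((RH ι p).obj ((sH ι p).obj (FW ι lam X i))) ∧
      IsInv ((sH ι p).obj (FW ι lam X i)) := by
  obtain ⟨c, n, hc, hn, ⟨e⟩⟩ := h
  exact ⟨_, fun i _ hj => frx p hc hn e i hj⟩

end Dh

end Vale.Agent.P257.F
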