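import Vale.Agent.P257.F.Dk
import Vale.Agent.P257.L.SCLoc
import Vale.Agent.P257.W.World
import Vale.Agent.P257.V.Env
import Vale.Agent.P257.N.Tst

/-!
# P257, block F: the free lemma in the stable categories `SC D`, linear cell attachments
-/

open CategoryTheory MonoidalCategory Limits

namespace Vale.Agent.P257.F

open Vale.Agent.P251.G Vale.Agent.P251.H Vale.Agent.P251.H.StabInput
open Vale.Agent.P257.D Vale.Agent.P257.C Vale.Agent.P257.K Vale.Agent.P257.A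

section general

variable {J : Type} [Idx J] [SphIdx J] {D : Stab (EF J)}

theorem IsCell.pw {A : EF J} (h : IsCell A) (hL : IsCell D.L) : ∀ k, IsCell (D.pw k A)
  | 0 => h
  | k + 1 => (hL.tensor (IsCell.jC _)).tensor (h.pw hL k)

theorem Env.of_sc (hL : IsCell D.L) {Δ : Type} [AddCommGroup Δ]
    {c : Cells (SC D) Δ} {s : Δ} (hs : c.obj s ≅ SC.SS D)
    (hc : ∀ d, ∃ A, IsCell A ∧ Nonempty (c.obj d ≅ (st D).obj A)) : Env (st D) c s where
  th := have : P251.M.IsInv ((st D).obj (S (EF J))) := P251.M.IsInv.of_inverse' (SC.lamIso D)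
    Th.of_loc (L.scLoc D)
  surj := (L.scLoc D).surj
  susp := ⟨hs⟩
  rep d Q x := by
    obtain ⟨A, hA, ⟨e⟩⟩ := hc d
    obtain ⟨k, f, hf⟩ := SC.exists_frac (e.inv ≫ x)
    exact ⟨_, e.hom ≫ inv ((st D).map (D.tk k A)), f, hA.pw hL k, by simp [← hf]⟩

end general

open Vale.Agent.P257.M Vale.Agent.P257.W Vale.Agent.P257.V Vale.Agent.P257.N

variable (p : ℕ)

theorem envE : Env (sE p) (cE p) (1, 0) :=
  Env.of_sc NF.L.isCell (SIso p).symm fun ⟨k, g⟩ => by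
    obtain ⟨X, hX⟩ := NF.exists g k
    exact ⟨X, hX.isCell, (hX.iso p).map Iso.symm⟩

theorem invLtE : InvLt (EE p) p := fun q hq h1 h2 A =>
  E.isIso_nsmul_n0 hq.ne_zero (fun r hr e => by
    rw [(Nat.prime_dvd_prime_iff_eq hr hq).1 e]
    exact ⟨h1, h2⟩) A

theorem realE : Real (sE p) (cE p) := ⟨L.scLoc _, ⟨SIso p⟩⟩

variable {p}

theorem hasSign_odd {d : ℤ} (h : Odd d) (g : Gam) : HasSign ((cE p).obj (d, g)) (-1) := by
  simpa [Int.negOnePow_odd d h] using hasSign_cE (p := p) d g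

theorem tOdd_of_iso {Y : EE p} {d : ℤ} {g : Gam} (e : Y ≅ (cE p).obj (d, g)) (h : Odd d) :
    TOdd (cE p) Y := (TOdd.of_hasSign (hasSign_odd h g)).of_iso e.symm

/-- the suspension of an even cell is odd -/
theorem tOdd_susp {X : MM} {k : ℤ} {g : Gam} (e : (sE p).obj X ≅ (cE p).obj (k, g)) (h : Even k) :
    TOdd (cE p) ((sE p).obj (X ⊗ S MM)) :=
  tOdd_of_iso ((e ⊗ᵢ SIso p) ≪≫ (cE p).add _ _) h.add_one

theorem worldE (hp : p.Prime) {τ : TCone (cE p)}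
    (dl : ∀ (X : MM) (f : ℕ), Dl τ f ((sE p).map (tX X f))) : World (sE p) (cE p) τ p :=
  World.of_env hp (L.scLoc _) (envE p) (invLtE p) (fun _ g h => hasSign_odd h g)
    (fun h => h.iso p) (fun g => ⟨rpIso p g⟩) dl (fun h k => bij_cell h k)

variable {X : MM} {B B' : CommMon MM} {i : B ⟶ B'} {x : X ⟶ B.X} {χ : X ⊗ CI MM ⟶ B'.X}

theorem bij_stgTo (h : IsAttach i x χ) (hB : PosT B.X 0) (hX : PosT X 1) {g : Gam} {m : ℕ}
    (l : g.2 ≤ m) (k : ℤ) : L.Bij ((cE p).obj (k, g)) ((sE p).map (stgTo h.w m)) :=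
  bij_cell' (degIso_stgTo wT_mono h hB hX m) l k

/-- **AT1** -/
theorem at1 (hp : p.Prime) (h : IsAttach i x χ) (hv : HV X) (hB : PosT B.X 0) (hX : PosT X 1)
    (ho : TOdd (cE p) ((sE p).obj (X ⊗ S MM))) {g : Gam} (hg : g.2 < p) (k : ℤ) :
    L.Bij ((cE p).obj (k, g)) ((sE p).map (c1 h.w)) := by
  obtain ⟨j, hj⟩ := exists_iso_c1 h.w
  have := hp.two_le
  rw [← hj, Functor.map_comp]
  exact (L.Bij.of_isIso _ _).comp ((realE p).bij_stgTo h.w (n := p - 1) (by omega)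
    (fun j a b => (envE p).acyclic_sym_odd proj_hz hp (invLtE p) hv ho (isOrb_DP _ _)
      (by simpa) (by rw [Nat.card_fin]; omega)) (bij_stgTo h hB hX (by omega) k))

/-- **AT2** -/
theorem at2 (h : IsAttach i x χ) (hv : HV X) (hB : PosT B.X 0) (hX : PosT X 1)
    (e : (cE p).TConn ((sE p).obj X) ∅) (g : Gam) (k : ℤ) :
    L.Bij ((cE p).obj (k, g)) ((sE p).map (ah i)) := by
  have e' : (cE p).TConn ((sE p).obj (X ⊗ S MM)) ∅ :=
    (tConn_empty_left e _).of_iso (β_ _ _ ≪≫ Functor.Monoidal.μIso (sE p) _ _)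
  rw [← stg0_stgTo h.w, Functor.map_comp]
  exact (L.Bij.of_isIso _ _).comp ((realE p).bij_stgTo h.w (n := g.2.toNat) (Nat.zero_le _)
    (fun j a _ =>
      have : Nonempty (Fin j) := ⟨⟨0, a⟩⟩
      (envE p).acyclic_sym proj_hz (hv.tensor _) (isOrb_DP j _) e')
    (bij_stgTo h hB hX (Int.self_le_toNat _) k))

theorem lin_at1 (hp : p.Prime) (h : IsAttach i x χ) (hv : HV X) (hB : PosT B.X 0) (hX : PosT X 1)
    (ho : TOdd (cE p) ((sE p).obj (X ⊗ S MM))) (e : (cE p).obj (1, 0) ≅ (sE p).obj (S MM))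
    {R : Set Gam} (hR : ∀ g ∈ R, g.2 < p) : Lin (sE p) (degTests (cE p) e R) i x χ :=
  Lin.of_c1 h.w (degTests_we_iff.2 fun k g hg => at1 hp h hv hB hX ho (hR g hg) k)

theorem we_at2 (h : IsAttach i x χ) (hv : HV X) (hB : PosT B.X 0) (hX : PosT X 1)
    (ha : (cE p).TConn ((sE p).obj X) ∅) {S₁ : EE p} (e : (cE p).obj (1, 0) ≅ S₁) (R : Set Gam) :
    (degTests (cE p) e R).WE ((sE p).map (ah i)) :=
  degTests_we_iff.2 fun k g _ => at2 h hv hB hX ha g k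

theorem posT_at (h : IsAttach i x χ) (hB : PosT B.X 0) (hX : PosT X 1) : PosT B'.X 0 :=
  posT_attach h hB (posT_mono hX zero_le_one)

end Vale.Agent.P257.F
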