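import Vale.Agent.P257.F.Tower
import Vale.Agent.P257.D.Base

/-!
# P257, block F: level-wise free actions on continuous functors

`LevelFree ρ`: at each level `d` the projection `Y ⊗ E₊ ⟶ Y` has an equivariant section for some
compact free space `E`.  `IsCell A`: `A ≅ rep d ⊗ F P`.  Maps from cells to orbits lift.
-/

open CategoryTheory MonoidalCategory Limits Topology OnePoint

namespace Vale.Agent.P257.F

open Vale.Agent.P251.G Vale.Agent.P251.H
open Vale.Agent.P251.G.LC (smash)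
open Vale.Agent.P257.D Vale.Agent.P257.D.EF
open Functor.LaxMonoidal Functor.OplaxMonoidal

variable {J : Type} [Idx J]

section cell

/-- objects of the form `rep d ⊗ F P` -/
def IsCell (A : EF J) : Prop := ∃ (d : J) (P : PQ), Nonempty (A ≅ rep d ⊗ (EF.F J).obj P)

namespace IsCell

variable {A B : EF J}

theorem of_iso (h : IsCell A) (e : A ≅ B) : IsCell B := by
  obtain ⟨d, P, ⟨i⟩⟩ := h
  exact ⟨d, P, ⟨e.symm ≪≫ i⟩⟩

theorem tensor (h : IsCell A) (h' : IsCell B) : IsCell (A ⊗ B) := by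
  obtain ⟨d, P, ⟨i⟩⟩ := h
  obtain ⟨d', P', ⟨i'⟩⟩ := h'
  refine ⟨d ⊗ d', P ⊗ P', ⟨tensorIso i i' ≪≫ ?_ ≪≫
    tensorIso (repTensor d d') (Functor.Monoidal.μIso (EF.F J) P P')⟩⟩
  exact ⟨tensorμ _ _ _ _, tensorδ _ _ _ _, tensorμ_tensorδ _ _ _ _, tensorδ_tensorμ _ _ _ _⟩

theorem rep (d : J) : IsCell (EF.rep d) :=
  ⟨d, 𝟙_ PQ, ⟨(ρ_ _).symm ≪≫ whiskerLeftIso _ (Functor.Monoidal.εIso (EF.F J))⟩⟩

theorem free (P : PQ) : IsCell ((EF.F J).obj P) := ⟨𝟙_ J, P, ⟨(λ_ _).symm⟩⟩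

theorem jC (K : LC) : IsCell ((EF.jC J).obj K) := free _

theorem unit : IsCell (𝟙_ (EF J)) := rep _

theorem tpow (h : IsCell A) : ∀ n, IsCell (tpow A n)
  | 0 => unit
  | n + 1 => h.tensor (tpow h n)

end IsCell

end cell

section sec

variable {Y Y' : EF J} {E E' : LC} {d : J}

/-- the point `(y, e)` of `Y ⊗ j E` -/
noncomputable def sec (y : OnePoint (Y.obj d)) (e : OnePoint E) :
    OnePoint ((Y ⊗ (jC J).obj E).obj d) :=
  (Y ⊗ (jC J).obj E).act (ρ_ d).hom (tm y (jm e (𝟙 _)))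

@[simp] theorem sec_infty_left (e : OnePoint E) : sec (∞ : OnePoint (Y.obj d)) e = ∞ := by
  rw [sec, tm_infty_left, act_infty]

@[simp] theorem sec_infty_right (y : OnePoint (Y.obj d)) : sec y (∞ : OnePoint E) = ∞ := by
  rw [sec, jm_infty_left, tm_infty_right, act_infty]

theorem sec_plot {K : CH} {y : K → OnePoint (Y.obj d)} {e : K → OnePoint E}
    (hy : (Y.obj d).plot K y) (he : Continuous e) :
    ((Y ⊗ (jC J).obj E).obj d).plot K (fun k => sec (y k) (e k)) :=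
  act_plot' _ _ (tm_plot hy (jm_plot he (Idx.plot_const _ _)))

theorem fn_tensorHom_sec (f : Y ⟶ Y') (g : E ⟶ E') (y : OnePoint (Y.obj d)) (e : OnePoint E) :
    fn (f ⊗ₘ (jC J).map g) (sec y e) = sec (fn f y) (LC.app g e) := by
  rw [sec, fn_act, tensorHom_tm, fn_jC_map, sec]

theorem fn_η_jC {a : J} (x : 𝟙_ J ⟶ a) :
    fn (η (jC J)) (jm (K := 𝟙_ LC) ((() : Unit) : OnePoint Unit) x) = pr x := by
  rw [← fn_ε_jC, ← fn_comp, Functor.Monoidal.ε_η, fn_id]

/-- plots of sections from closed graphs -/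
theorem sec_plot_of_isClosed {K : CH} {y : K → OnePoint (Y.obj d)} (hy : (Y.obj d).plot K y)
    {e : K → OnePoint E} (P : K → Prop) (hP : ∀ k, ¬ P k → y k = ∞)
    (hc : IsClosed {p : K × OnePoint E | P p.1 → p.2 = e p.1}) :
    ((Y ⊗ (jC J).obj E).obj d).plot K (fun k => sec (y k) (e k)) := by
  have : CompactSpace {p : K × OnePoint E | P p.1 → p.2 = e p.1} :=
    isCompact_iff_compactSpace.mp hc.isCompact
  let L : CH := CH.of {p : K × OnePoint E | P p.1 → p.2 = e p.1}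
  have h1 : Continuous (fun l : L => l.1.1) := continuous_fst.comp continuous_subtype_val
  have h2 : Continuous (fun l : L => l.1.2) := continuous_snd.comp continuous_subtype_val
  refine PQ.plot_surj _ (L := L) (fun l => l.1.1) _ h1 (fun k => ⟨⟨(k, e k), fun _ => rfl⟩, rfl⟩) ?_
  have h3 := sec_plot (((Y.obj d).plot_comp (L := L) _ y h1 hy)) h2
  refine (congrArg _ (funext fun l => ?_)).mp h3
  by_cases h : P l.1.1
  · rw [l.2 h]
  · rw [hP _ h, sec_infty_left, sec_infty_left]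

variable [SphIdx J]

theorem fn_jpr_sec [CompactSpace E] (y : OnePoint (Y.obj d)) (e : E) :
    fn (jpr (toPt E) Y) (sec y (e : OnePoint E)) = y := by
  change fn (Y ◁ ((jC J).map (toPt E) ≫ η (jC J)) ≫ (ρ_ Y).hom) _ = _
  rw [sec, fn_act, fn_comp, whiskerLeft_tm, fn_comp, fn_jC_map, app_toPt, fn_η_jC,
    rightUnitor_tm, ← act_comp]
  erw [unpr_pr]
  rw [MonoidalCategory.whiskerLeft_id, Category.comp_id, Iso.inv_hom_id, act_id]

end sec

variable [SphIdx J] {Γ : Type} [Group Γ]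

/-- level-wise free actions -/
def LevelFree {Y : EF J} (ρ : Γ → (Y ⟶ Y)) : Prop :=
  ∀ d : J, ∃ (E : FreeSp Γ)
    (s : (ev d).obj Y ⟶ (ev d).obj (Y ⊗ (StabInput.J (EF J)).obj E.lc)),
    s ≫ (ev d).map (jpr (toPt E.lc) Y) = 𝟙 _ ∧
      ∀ g, (ev d).map (ρ g) ≫ s = s ≫ (ev d).map (ρ g ⊗ₘ (StabInput.J (EF J)).map (E.σ g))

theorem LevelFree.of_iso {Y Y' : EF J} {ρ : Γ → (Y ⟶ Y)} {ρ' : Γ → (Y' ⟶ Y')} (h : LevelFree ρ)
    (e : Y ≅ Y') (he : ∀ g, ρ g ≫ e.hom = e.hom ≫ ρ' g) : LevelFree ρ' := by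
  intro d
  obtain ⟨E, s, h1, h2⟩ := h d
  refine ⟨E, (ev d).map e.inv ≫ s ≫ (ev d).map (e.hom ▷ _), ?_, fun g => ?_⟩
  · rw [Category.assoc, Category.assoc, ← Functor.map_comp, jpr_nat, Functor.map_comp,
      ← Category.assoc s, h1, Category.id_comp, ← Functor.map_comp, e.inv_hom_id,
      CategoryTheory.Functor.map_id]
  · have h3 : ρ' g ≫ e.inv = e.inv ≫ ρ g := by
      rw [Iso.comp_inv_eq, Category.assoc, he, e.inv_hom_id_assoc]
    have h4 : (ρ g ⊗ₘ (StabInput.J (EF J)).map (E.σ g)) ≫ e.hom ▷ _ =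
        e.hom ▷ _ ≫ (ρ' g ⊗ₘ (StabInput.J (EF J)).map (E.σ g)) := by
      rw [← tensorHom_id, tensorHom_comp_tensorHom, tensorHom_comp_tensorHom, he,
        Category.comp_id, Category.id_comp]
    rw [← Category.assoc, ← Functor.map_comp, h3, Functor.map_comp, Category.assoc,
      ← Category.assoc _ s, h2 g, Category.assoc, ← Functor.map_comp, h4, Functor.map_comp,
      Category.assoc, Category.assoc]

/-- restriction of a free space along an injective homomorphism -/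
def FreeSp.comap {Γ' : Type} [Group Γ'] (E : FreeSp Γ) (φ : Γ' →* Γ)
    (hφ : Function.Injective φ) : FreeSp Γ' :=
  letI := MulAction.compHom E.E φ
  { E := E.E
    cont := ⟨fun g => continuous_const_smul (φ g)⟩
    free := fun g e h => hφ ((E.free (φ g) e h).trans (map_one φ).symm) }

theorem LevelFree.comp {Γ' : Type} [Group Γ'] {Y : EF J} {ρ : Γ → (Y ⟶ Y)} (h : LevelFree ρ)
    (φ : Γ' →* Γ) (hφ : Function.Injective φ) : LevelFree (fun g => ρ (φ g)) := by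
  intro d
  obtain ⟨E, s, h1, h2⟩ := h d
  exact ⟨E.comap φ hφ, s, h1, fun g => h2 (φ g)⟩

/-- Morphisms from cells to orbits lift. -/
theorem LevelFree.lifts {Y : EF J} {ρ : Γ → (Y ⟶ Y)} (h : LevelFree ρ) {A : EF J}
    (hA : IsCell A) : Lifts ρ A := by
  intro K Q π hπ a
  obtain ⟨d, P, ⟨e₀⟩⟩ := hA
  let e : A ≅ smul P (rep d) := e₀ ≪≫ repF d P
  obtain ⟨E, s, h1, h2⟩ := h d
  obtain ⟨Q', π', hπ'⟩ :=
    exists_isOrb (fun g : K => ρ g ⊗ₘ (StabInput.J (EF J)).map (E.σ g))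
  obtain ⟨r, hr⟩ := hπ'.exists_map hπ.w (jpr (toPt E.lc) Y)
    (fun g => by rw [tensorHom_jpr, FreeSp.σ_toPt])
  have hd := hπ.map (ev d)
  obtain ⟨s', hs'⟩ := hd.desc (s ≫ (ev d).map π') (fun g => by
    rw [← Category.assoc, h2 g, Category.assoc, ← Functor.map_comp, hπ'.w g])
  have hsr : s' ≫ (ev d).map r = 𝟙 _ := hd.ext (by
    rw [← Category.assoc, hs', Category.assoc, ← Functor.map_comp, hr, Functor.map_comp,
      ← Category.assoc, h1, Category.id_comp, Category.comp_id])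
  let s'' : Q.obj d ⟶ Q'.obj d := s'
  have hsr' : s'' ≫ Hom.app r d = 𝟙 _ := hsr
  refine ⟨E, Q', π', r,
    e.hom ≫ (smulYoEquiv P Q' d).symm (smulYoEquiv P Q d (e.inv ≫ a) ≫ s''), hπ', hr, ?_⟩
  rw [Category.assoc, ← Iso.eq_inv_comp]
  apply (smulYoEquiv P Q d).injective
  rw [smulYoEquiv_comp, Equiv.apply_symm_apply, Category.assoc, hsr', Category.comp_id]

end Vale.Agent.P257.F
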