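import Vale.Agent.P257.F.Orb
import Vale.Agent.P251.H.PQTop
import Mathlib.Topology.UrysohnsLemma
import Mathlib.Topology.Algebra.ConstMulAction

/-!
# P257, block F: the unreduced suspension of a finite set and nilpotence on free spaces

For a finite type `Z`, `TZ Z` is the mapping cone of `Z₊ ⟶ S⁰`.  If a finite group `Γ` acts on `Z`
and on a compact space `E` such that every isotropy group of `E` fixes a point of `Z`, then
`E₊ ⟶ S⁰ ⟶ TZ Z ⊗ ⋯ ⊗ TZ Z` is equivariantly null-homotopic for some number of factors.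
-/

open CategoryTheory MonoidalCategory Limits Topology OnePoint

namespace Vale.Agent.P257.F

open Vale.Agent.P251.G Vale.Agent.P251.G.LC Vale.Agent.P251.H Vale.Agent.P251.H.LP

/-- a type with the discrete topology -/
def Dsc (Z : Type) : Type := Z

instance (Z : Type) : TopologicalSpace (Dsc Z) := ⊥

instance (Z : Type) : DiscreteTopology (Dsc Z) := ⟨rfl⟩

instance (Z : Type) [h : Finite Z] : Finite (Dsc Z) := h

/-- a type as a discrete space -/
abbrev dsc (Z : Type) : LC := LC.of (Dsc Z)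

/-- the point of a discrete space -/
def Dsc.mk {Z : Type} (z : Z) : Dsc Z := z

/-- the underlying element -/
def Dsc.val {Z : Type} (z : Dsc Z) : Z := z

@[simp] theorem Dsc.val_mk {Z : Type} (z : Z) : (Dsc.mk z).val = z := rfl

@[simp] theorem Dsc.mk_val {Z : Type} (z : Dsc Z) : Dsc.mk z.val = z := rfl

/-- the map of a compact space to the point -/
def toPt (E : LC) [CompactSpace E] : E ⟶ 𝟙_ LC :=
  ofCompact (X := E) (Y := LC.of Unit) (fun _ => ()) continuous_const

theorem app_toPt (E : LC) [CompactSpace E] (e : E) :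
    app (toPt E) (e : OnePoint E) = ((() : Unit) : OnePoint Unit) := rfl

/-- a pointed map out of a compact space with a disjoint base point -/
def ofCpt {X Y : LC} [CompactSpace X] (f : X → OnePoint Y) (hf : Continuous f) : X ⟶ Y :=
  mk' f hf (by rw [Filter.cocompact_eq_bot]; exact Filter.tendsto_bot)

@[simp] theorem app_ofCpt {X Y : LC} [CompactSpace X] (f : X → OnePoint Y) (hf : Continuous f)
    (x : X) : app (ofCpt f hf) (x : OnePoint X) = f x := rfl

section dsc

variable {Z Z' Z'' : Type} [Finite Z] [Finite Z'] [Finite Z'']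

/-- a map of finite sets as a morphism of discrete spaces -/
def dmap (f : Z → Z') : dsc Z ⟶ dsc Z' :=
  ofCompact (X := dsc Z) (Y := dsc Z') (fun z => Dsc.mk (f z.val)) continuous_of_discreteTopology

omit [Finite Z'] in
theorem app_dmap (f : Z → Z') (z : Z) :
    app (dmap f) ((Dsc.mk z : Dsc Z) : OnePoint (Dsc Z)) = (Dsc.mk (f z) : Dsc Z') := rfl

theorem dmap_id : dmap (fun z : Z => z) = 𝟙 (dsc Z) := LC.hom_ext fun _ => rfl

omit [Finite Z''] in
theorem dmap_comp (f : Z → Z') (g : Z' → Z'') :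
    dmap (fun z => g (f z)) = dmap f ≫ dmap g := LC.hom_ext fun _ => rfl

@[reassoc (attr := simp)]
theorem dmap_toPt (f : Z → Z') : dmap f ≫ toPt (dsc Z') = toPt (dsc Z) := LC.hom_ext fun _ => rfl

/-- the inclusion of a point -/
def dpt {Z : Type} (z : Z) : 𝟙_ LC ⟶ dsc Z := point (X := dsc Z) (Dsc.mk z)

omit [Finite Z'] in
@[reassoc (attr := simp)]
theorem dpt_dmap (z : Z) (f : Z → Z') : dpt z ≫ dmap f = dpt (f z) := LC.hom_ext fun _ => rfl

@[reassoc (attr := simp)]
theorem dpt_toPt (z : Z) : dpt z ≫ toPt (dsc Z) = 𝟙 _ := LC.hom_ext fun _ => rfl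

variable (Z) in
/-- the unreduced suspension of a finite set -/
noncomputable def TZ : LC := cone (toPt (dsc Z))

variable (Z) in
/-- the cone part -/
noncomputable def tin : dsc Z ⊗ HH ⟶ TZ Z := coneInl (toPt (dsc Z))

variable (Z) in
/-- the second cone point -/
noncomputable def tpt : 𝟙_ LC ⟶ TZ Z := coneInr (toPt (dsc Z))

variable (Z) in
theorem isPushout_TZ : IsPushout (LC.coneBase (dsc Z)) (toPt (dsc Z)) (tin Z) (tpt Z) :=
  isPushout_cone _

/-- functoriality of `TZ` -/
noncomputable def tmap (f : Z → Z') : TZ Z ⟶ TZ Z' :=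
  coneMap (dmap f) (𝟙 _) (by rw [dmap_toPt, Category.comp_id])

@[reassoc]
theorem tin_tmap (f : Z → Z') : tin Z ≫ tmap f = dmap f ▷ HH ≫ tin Z' := coneInl_map _ _ _

@[reassoc (attr := simp)]
theorem tpt_tmap (f : Z → Z') : tpt Z ≫ tmap f = tpt Z' :=
  (coneInr_map _ _ _).trans (Category.id_comp _)

theorem tmap_id : tmap (fun z : Z => z) = 𝟙 (TZ Z) := by
  apply (isPushout_TZ Z).hom_ext
  · rw [tin_tmap, dmap_id, id_whiskerRight, Category.id_comp, Category.comp_id]
  · rw [tpt_tmap, Category.comp_id]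

theorem tmap_comp (f : Z → Z') (g : Z' → Z'') :
    tmap (fun z => g (f z)) = tmap f ≫ tmap g := by
  apply (isPushout_TZ Z).hom_ext
  · rw [tin_tmap, tin_tmap_assoc, tin_tmap, dmap_comp, comp_whiskerRight, Category.assoc]
  · rw [tpt_tmap, tpt_tmap_assoc, tpt_tmap]

/-- the meridian through `z` -/
noncomputable def merid (z : Z) (s : unitInterval) : OnePoint (TZ Z) :=
  app (tin Z) (smash ((Dsc.mk z : Dsc Z) : OnePoint (Dsc Z))
    (app endColl (s : OnePoint unitInterval)))

theorem continuous_merid (z : Z) : Continuous (merid z) :=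
  (continuous_app _).comp (continuous_smash.comp (continuous_const.prodMk
    ((continuous_app endColl).comp OnePoint.continuous_coe)))

theorem merid_zero (z : Z) : merid z 0 = app (tpt Z) ((() : Unit) : OnePoint Unit) := by
  have h0 : app endColl ((0 : unitInterval) : OnePoint unitInterval) =
      ((0 : NNReal) : OnePoint NNReal) := by
    rw [← endFun_zero, app_endColl_endFun]
  have h := congrArg (fun m => app m ((Dsc.mk z : Dsc Z) : OnePoint (Dsc Z))) (isPushout_TZ Z).w
  simp only [app_comp, app_coneBase] at h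
  rw [merid, h0]
  exact h

theorem merid_one (z : Z) : merid z 1 = ∞ := by
  rw [merid, app_endColl_one, smash_infty_right]
  exact app_infty _

theorem tmap_merid (f : Z → Z') (z : Z) (s : unitInterval) :
    app (tmap f) (merid z s) = merid (f z) s := by
  have h := congrArg (fun m => app m (smash ((Dsc.mk z : Dsc Z) : OnePoint (Dsc Z))
    (app endColl (s : OnePoint unitInterval)))) (tin_tmap f)
  simp only [app_comp] at h
  rw [merid, h, app_whiskerRight_smash, app_dmap]
  rfl

variable (Z) in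
/-- smash powers of `TZ Z` -/
noncomputable def Tp : ℕ → LC
  | 0 => 𝟙_ LC
  | n + 1 => TZ Z ⊗ Tp n

variable (Z) in
/-- the second point of `Tp Z n` -/
noncomputable def Tpt : ∀ n : ℕ, 𝟙_ LC ⟶ Tp Z n
  | 0 => 𝟙 _
  | n + 1 => (λ_ _).inv ≫ (tpt Z ⊗ₘ Tpt n)

/-- functoriality of `Tp` -/
noncomputable def Tmap (f : Z → Z') : ∀ n : ℕ, Tp Z n ⟶ Tp Z' n
  | 0 => 𝟙 _
  | n + 1 => tmap f ⊗ₘ Tmap f n

theorem Tpt_Tmap (f : Z → Z') : ∀ n : ℕ, Tpt Z n ≫ Tmap f n = Tpt Z' n
  | 0 => Category.comp_id _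
  | n + 1 => by
    change ((λ_ _).inv ≫ (tpt Z ⊗ₘ Tpt Z n)) ≫ (tmap f ⊗ₘ Tmap f n) =
      (λ_ _).inv ≫ (tpt Z' ⊗ₘ Tpt Z' n)
    rw [Category.assoc, tensorHom_comp_tensorHom, tpt_tmap, Tpt_Tmap f n]

theorem app_Tpt_succ (n : ℕ) : app (Tpt Z (n + 1)) ((() : Unit) : OnePoint Unit) =
    smash (app (tpt Z) ((() : Unit) : OnePoint Unit))
      (app (Tpt Z n) ((() : Unit) : OnePoint Unit)) :=
  app_tensorHom_coe (tpt Z) (Tpt Z n) () ()

end dsc

section null

variable {Γ : Type} [Group Γ] {Z : Type} [Finite Z] [MulAction Γ Z]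
  {E : Type} [TopologicalSpace E] [MulAction Γ E]

variable (Γ Z E) in
/-- an equivariant family of functions with disjoint supports -/
structure Chart where
  /-- the functions -/
  r : Z → E → ℝ
  cont : ∀ z, Continuous (r z)
  equi : ∀ (g : Γ) z e, r (g • z) (g • e) = r z e
  disj : ∀ e z z', r z e ≠ 0 → r z' e ≠ 0 → z = z'

namespace Chart

variable (c : Chart Γ Z E)

/-- the other functions vanish -/
def Only (z : Z) (e : E) : Prop := ∀ z', z' ≠ z → c.r z' e = 0

omit [Finite Z] in
theorem exists_only [Nonempty Z] (e : E) : ∃ z, c.Only z e := by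
  by_cases h : ∃ z, c.r z e ≠ 0
  · obtain ⟨z, hz⟩ := h
    exact ⟨z, fun z' hz' => by
      by_contra h'
      exact hz' (c.disj e z' z h' hz)⟩
  · push Not at h
    exact ⟨Classical.arbitrary Z, fun z' _ => h z'⟩

omit [Finite Z] in
theorem isClosed_only (z : Z) : IsClosed {e | c.Only z e} := by
  have : {e | c.Only z e} = ⋂ z' : {z' // z' ≠ z}, {e | c.r z' e = 0} := by
    ext e
    simp only [Only, Set.mem_ofPred_eq, Set.mem_iInter, Subtype.forall]
  rw [this]
  exact isClosed_iInter fun z' => isClosed_eq (c.cont _) continuous_const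

/-- the path along the meridian `z` -/
noncomputable def along (z : Z) (p : E × unitInterval) : OnePoint (TZ Z) :=
  merid z (Set.projIcc 0 1 zero_le_one ((p.2 : ℝ) * c.r z p.1))

theorem continuous_along (z : Z) : Continuous (c.along z) :=
  (continuous_merid z).comp (continuous_projIcc.comp
    ((continuous_subtype_val.comp continuous_snd).mul ((c.cont z).comp continuous_fst)))

theorem along_of_zero {z : Z} {p : E × unitInterval} (h : (p.2 : ℝ) * c.r z p.1 = 0) :
    c.along z p = app (tpt Z) ((() : Unit) : OnePoint Unit) := by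
  rw [along, h, Set.projIcc_left]
  exact merid_zero z

theorem along_eq {z z' : Z} {p : E × unitInterval} (h : c.Only z p.1) (h' : c.Only z' p.1) :
    c.along z p = c.along z' p := by
  by_cases e : z = z'
  · rw [e]
  · rw [c.along_of_zero (by rw [h' z e, mul_zero]),
      c.along_of_zero (by rw [h z' (Ne.symm e), mul_zero])]

variable [Nonempty Z]

/-- the homotopy of a chart -/
noncomputable def ht (p : E × unitInterval) : OnePoint (TZ Z) :=
  c.along (c.exists_only p.1).choose p

theorem ht_eq {z : Z} {p : E × unitInterval} (h : c.Only z p.1) : c.ht p = c.along z p :=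
  c.along_eq (c.exists_only p.1).choose_spec h

theorem continuous_ht : Continuous c.ht := by
  refine (locallyFinite_of_finite (fun z : Z => {p : E × unitInterval | c.Only z p.1})).continuous
    ?_ (fun z => (c.isClosed_only z).preimage continuous_fst) (fun z => ?_)
  · exact Set.eq_univ_of_forall fun p => Set.mem_iUnion.mpr (c.exists_only p.1)
  · exact (c.continuous_along z).continuousOn.congr fun p hp => c.ht_eq hp

theorem ht_zero (e : E) : c.ht (e, 0) = app (tpt Z) ((() : Unit) : OnePoint Unit) :=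
  c.along_of_zero (zero_mul _)

theorem ht_one {e : E} {z : Z} (h : 1 ≤ c.r z e) : c.ht (e, 1) = ∞ := by
  have h0 : c.r z e ≠ 0 := by intro h0; rw [h0] at h; exact absurd h (by norm_num)
  rw [c.ht_eq (z := z) (fun z' hz' => by
    by_contra h'
    exact hz' (c.disj e z' z h' h0)), along]
  change merid z (Set.projIcc 0 1 zero_le_one (1 * c.r z e)) = ∞
  rw [one_mul, Set.projIcc_of_right_le _ h]
  exact merid_one z

theorem ht_smul (g : Γ) (e : E) (t : unitInterval) :
    c.ht (g • e, t) = app (tmap (fun z : Z => g • z)) (c.ht (e, t)) := by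
  obtain ⟨z, hz⟩ := c.exists_only e
  have hz' : c.Only (g • z) (g • e) := fun z' h => by
    have := c.equi g (g⁻¹ • z') e
    rw [smul_inv_smul] at this
    rw [this]
    exact hz _ (fun h' => h (by rw [← h', smul_inv_smul]))
  rw [c.ht_eq (p := (g • e, t)) hz', c.ht_eq (p := (e, t)) hz, along, along, tmap_merid]
  change merid _ (Set.projIcc 0 1 zero_le_one ((t : ℝ) * c.r (g • z) (g • e))) = _
  rw [c.equi]

end Chart

theorem exists_null_list [Nonempty Z] (l : List (Chart Γ Z E)) :
    ∃ (n : ℕ) (F : E × unitInterval → OnePoint (Tp Z n)), Continuous F ∧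
      (∀ e, F (e, 0) = app (Tpt Z n) ((() : Unit) : OnePoint Unit)) ∧
      (∀ c ∈ l, ∀ e z, 1 ≤ c.r z e → F (e, 1) = ∞) ∧
      ∀ (g : Γ) e t, F (g • e, t) = app (Tmap (fun z : Z => g • z) n) (F (e, t)) := by
  induction l with
  | nil =>
    exact ⟨0, fun _ => ((() : Unit) : OnePoint Unit), continuous_const, fun _ => rfl,
      fun c hc => absurd hc List.not_mem_nil, fun _ _ _ => rfl⟩
  | cons c l ih =>
    obtain ⟨n, F, h1, h2, h3, h4⟩ := ih
    refine ⟨n + 1, fun p => smash (c.ht p) (F p),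
      continuous_smash.comp (c.continuous_ht.prodMk h1), fun e => ?_, fun c' hc' e z hz => ?_,
      fun g e t => ?_⟩
    · rw [app_Tpt_succ, ← c.ht_zero e, ← h2 e]
    · rcases List.mem_cons.mp hc' with rfl | hc'
      · change smash (c'.ht (e, 1)) (F (e, 1)) = ∞
        rw [c'.ht_one hz, smash_infty_left]
      · change smash (c.ht (e, 1)) (F (e, 1)) = ∞
        rw [h3 c' hc' e z hz, smash_infty_right]
    · change smash (c.ht (g • e, t)) (F (g • e, t)) = _
      rw [c.ht_smul, h4]
      exact (app_tensorHom_smash _ _ _ _).symm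

omit [Finite Z] in
theorem exists_chart [Finite Γ] [CompactSpace E] [T2Space E] [ContinuousConstSMul Γ E] (e₀ : E)
    (z₀ : Z) (h : ∀ g : Γ, g • e₀ = e₀ → g • z₀ = z₀) :
    ∃ (c : Chart Γ Z E) (V : Set E), V ∈ 𝓝 e₀ ∧ ∀ e ∈ V, ∃ z, 1 ≤ c.r z e := by
  classical
  have := Fintype.ofFinite Γ
  -- a neighbourhood which is moved off itself
  have h1 : ∀ g : Γ, ∃ W ∈ 𝓝 e₀, g • e₀ ≠ e₀ → ∀ x ∈ W, g • x ∉ W := by
    intro g
    by_cases hg : g • e₀ = e₀
    · exact ⟨Set.univ, Filter.univ_mem, fun h' => absurd hg h'⟩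
    · obtain ⟨A, B, hA, hB, ha, hb, hAB⟩ := t2_separation hg
      refine ⟨B ∩ (fun x => g • x) ⁻¹' A, Filter.inter_mem (hB.mem_nhds hb)
        ((hA.preimage (continuous_const_smul g)).mem_nhds ha), fun _ x hx hx' => ?_⟩
      exact Set.disjoint_left.mp hAB hx.2 hx'.1
  choose W hW hW' using h1
  obtain ⟨U, hU, hUo, hUe⟩ := mem_nhds_iff.mp (Filter.iInter_mem.mpr hW)
  have hU' : ∀ (g : Γ) x, x ∈ U → g • x ∈ U → g • z₀ = z₀ := fun g x hx hx' => by
    apply h
    by_contra hg
    exact hW' g hg x (Set.mem_iInter.mp (hU hx) g) (Set.mem_iInter.mp (hU hx') g)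
  obtain ⟨V, hV, hVc, hVU⟩ := exists_mem_nhds_isClosed_subset (hUo.mem_nhds hUe)
  obtain ⟨β, hβ0, hβ1, hβ⟩ := exists_continuous_zero_one_of_isClosed hUo.isClosed_compl hVc
    (Set.disjoint_left.mpr fun x hx hx' => hx (hVU hx'))
  have hne : ∀ (z : Z) (e : E), (∑ g : Γ, if g • z₀ = z then β (g⁻¹ • e) else 0) ≠ 0 →
      ∃ g : Γ, g • z₀ = z ∧ g⁻¹ • e ∈ U := by
    intro z e hz
    obtain ⟨g, -, hg⟩ := Finset.exists_ne_zero_of_sum_ne_zero hz
    by_cases h1 : g • z₀ = z
    · rw [if_pos h1] at hg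
      refine ⟨g, h1, ?_⟩
      by_contra h2
      exact hg (hβ0 h2)
    · rw [if_neg h1] at hg
      exact absurd rfl hg
  refine ⟨⟨fun z e => ∑ g : Γ, if g • z₀ = z then β (g⁻¹ • e) else 0, fun z => ?_,
    fun g z e => ?_, fun e z z' hz hz' => ?_⟩, V, hV, fun e he => ⟨z₀, ?_⟩⟩
  · refine continuous_finsetSum _ fun g _ => ?_
    split_ifs
    · exact β.continuous.comp (continuous_const_smul _)
    · exact continuous_const
  · rw [← Equiv.sum_comp (Equiv.mulLeft g)]
    refine Finset.sum_congr rfl fun d _ => ?_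
    simp only [Equiv.coe_mulLeft, mul_smul, smul_left_cancel_iff, mul_inv_rev, inv_smul_smul]
  · obtain ⟨g, rfl, hg⟩ := hne z e hz
    obtain ⟨g', rfl, hg'⟩ := hne z' e hz'
    have := hU' (g'⁻¹ * g) _ hg (by rwa [mul_smul, smul_inv_smul])
    rw [mul_smul, inv_smul_eq_iff] at this
    exact this
  · have h1 : (if (1 : Γ) • z₀ = z₀ then β ((1 : Γ)⁻¹ • e) else 0) = 1 := by
      rw [if_pos (one_smul _ _), inv_one, one_smul]
      exact hβ1 he
    rw [← h1]
    refine Finset.single_le_sum (f := fun g : Γ => if g • z₀ = z₀ then β (g⁻¹ • e) else 0)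
      (fun g _ => ?_) (Finset.mem_univ 1)
    split_ifs
    · exact (hβ _).1
    · exact le_rfl

/-- **Nilpotence.** -/
theorem exists_null [Finite Γ] [Nonempty Z] [CompactSpace E] [T2Space E] [ContinuousConstSMul Γ E]
    (h : ∀ e : E, ∃ z : Z, ∀ g : Γ, g • e = e → g • z = z) :
    ∃ (n : ℕ) (F : E × unitInterval → OnePoint (Tp Z n)), Continuous F ∧
      (∀ e, F (e, 0) = app (Tpt Z n) ((() : Unit) : OnePoint Unit)) ∧ (∀ e, F (e, 1) = ∞) ∧
      ∀ (g : Γ) e t, F (g • e, t) = app (Tmap (fun z : Z => g • z) n) (F (e, t)) := by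
  classical
  choose z hz using h
  choose c V hV hc using fun e : E => exists_chart (Γ := Γ) e (z e) (hz e)
  obtain ⟨s, hs⟩ := CompactSpace.elim_nhds_subcover V hV
  obtain ⟨n, F, h1, h2, h3, h4⟩ := exists_null_list (s.toList.map c)
  refine ⟨n, F, h1, h2, fun e => ?_, h4⟩
  have he : e ∈ ⋃ x ∈ s, V x := by rw [hs]; trivial
  obtain ⟨x, hx, hxe⟩ := Set.mem_iUnion₂.mp he
  obtain ⟨z', hz'⟩ := hc x e hxe
  exact h3 (c x) (List.mem_map.mpr ⟨x, Finset.mem_toList.mpr hx, rfl⟩) e z' hz'

end null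

end Vale.Agent.P257.F
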