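import Vale.Agent.P257.F.Tower
import Vale.Agent.P257.A.Cube
import Vale.Agent.P257.Z.Ndr
import Vale.Agent.P257.C.Deg

/-!
# P257, block F: permutation spheres and pinch maps

`sph ι = ℝ^ι` with the action of bijections, `(X ⊗ S)^ι ≅ X^ι ⊗ sph ι`, and the equivariant pinch
maps `sph ι ⟶ sph ι ⊗ Z₊` given by injective colourings `Z → ι → ℕ`.
-/

open CategoryTheory MonoidalCategory Limits Topology OnePoint

namespace Vale.Agent.P257.F

open Vale.Agent.P251.G Vale.Agent.P251.G.LC Vale.Agent.P251.H Vale.Agent.P251.H.LP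
open Vale.Agent.P251.H.StabInput Vale.Agent.P257.A Vale.Agent.P257.C

universe v u v' u'

section lc

variable {ι κ ν : Type} [Finite ι] [Finite κ] [Finite ν]

variable (ι) in
/-- the sphere `ℝ^ι` -/
abbrev sph : LC := LC.of (ι → ℝ)

variable (ι) in
/-- the sphere is the power of the line -/
noncomputable def sphI : sph ι ≅ pw ι RR := piIso (fun _ : ι => RR)

/-- bijections act on spheres -/
noncomputable def sphE (e : ι ≃ κ) : sph ι ⟶ sph κ := (sphI ι).hom ≫ pwE RR e ≫ (sphI κ).inv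

theorem app_sphE (e : ι ≃ κ) (y : ι → ℝ) :
    app (sphE e) (y : OnePoint (ι → ℝ)) = OnePoint.some (fun k => y (e.symm k) : κ → ℝ) := by
  have h := app_bigEquiv_bsm e (X := fun _ => RR) (fun k => ((y (e.symm k) : ℝ) : OnePoint ℝ))
  simp only [Equiv.symm_apply_apply] at h
  rw [sphE, app_comp, app_comp]
  refine (congrArg (fun x => app (sphI κ).inv (app (pwE RR e) x))
    (app_piIso (X := fun _ => RR) y)).trans ?_
  exact (congrArg (app (sphI κ).inv) h).trans (app_piIso_inv (X := fun _ => RR) _)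

theorem isAct_sphE : IsAct (fun g : Equiv.Perm ι => sphE g) :=
  ⟨by simp [sphE, Equiv.Perm.one_def], fun g h => by simp [sphE, Equiv.Perm.mul_def, pwE_trans]⟩

theorem ofOpen_comm {X Y X' Y' : LC} {j : Y → X} (hj : IsOpenEmbedding j) {j' : Y' → X'}
    (hj' : IsOpenEmbedding j') {a : X ⟶ X'} {b : Y ⟶ Y'} {a₀ : X → X'} {b₀ : Y → Y'}
    (ha : ∀ x : X, app a (x : OnePoint X) = (a₀ x : OnePoint X'))
    (hb : ∀ y : Y, app b (y : OnePoint Y) = (b₀ y : OnePoint Y'))
    (w : ∀ y, a₀ (j y) = j' (b₀ y)) (w' : ∀ x, a₀ x ∈ Set.range j' → x ∈ Set.range j) :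
    a ≫ ofOpen j' hj' = ofOpen j hj ≫ b := by
  refine LC.hom_ext fun x => ?_
  rw [app_comp, app_comp, ha]
  by_cases hx : x ∈ Set.range j
  · obtain ⟨y, rfl⟩ := hx
    rw [w, app_ofOpen_coe, app_ofOpen_coe, hb]
  · rw [app_ofOpen_of_notMem _ _ hx, app_ofOpen_of_notMem _ _ (fun h => hx (w' x h)), app_infty]

/-- disjoint open intervals -/
noncomputable def bmp (n : ℕ) (s : ℝ) : ℝ := 4 * n + Real.arctan s

theorem continuous_bmp (n : ℕ) : Continuous (bmp n) :=
  continuous_const.add Real.continuous_arctan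

theorem strictMono_bmp (n : ℕ) : StrictMono (bmp n) := fun _ _ h =>
  add_lt_add_right (Real.arctan_strictMono h) _

theorem bmp_inj {n m : ℕ} {s t : ℝ} (h : bmp n s = bmp m t) : n = m := by
  have h1 := Real.arctan_lt_pi_div_two s
  have h2 := Real.neg_pi_div_two_lt_arctan s
  have h3 := Real.arctan_lt_pi_div_two t
  have h4 := Real.neg_pi_div_two_lt_arctan t
  have h5 := Real.pi_le_four
  unfold bmp at h
  have h6 : (n : ℝ) < m + 1 := by linarith
  have h7 : (m : ℝ) < n + 1 := by linarith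
  have h8 : n < m + 1 := by exact_mod_cast h6
  have h9 : m < n + 1 := by exact_mod_cast h7
  omega

variable {Z : Type} [Finite Z]

/-- the embedding of `ℝ^ι × Z` given by a colouring -/
noncomputable def cemb (col : Z → ι → ℕ) (p : (ι → ℝ) × Dsc Z) : ι → ℝ :=
  fun i => bmp (col p.2.val i) (p.1 i)

omit [Finite Z] in
theorem isOpenEmbedding_cemb {col : Z → ι → ℕ} (h : Function.Injective col) :
    IsOpenEmbedding (cemb col) := by
  have h1 := P257.Z.isOpenEmbedding_mono (P := Dsc Z) (fun z i => bmp (col z.val i))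
    (fun i => ((continuous_of_discreteTopology (f := fun z : Dsc Z =>
      (4 * (col z.val i : ℝ)))).comp continuous_fst).add
        (Real.continuous_arctan.comp continuous_snd)) (fun z i => strictMono_bmp _)
  refine IsOpenEmbedding.of_continuous_injective_isOpenMap
    (continuous_fst.comp h1.continuous) ?_ (isOpenMap_fst.comp h1.isOpenMap)
  rintro ⟨u, z⟩ ⟨u', z'⟩ e
  obtain rfl : z = z' := h (funext fun i => bmp_inj (congrFun e i))
  exact Prod.ext (funext fun i => (strictMono_bmp _).injective (congrFun e i)) rfl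

/-- the pinch map of a colouring -/
noncomputable def pinch {col : Z → ι → ℕ} (h : Function.Injective col) : sph ι ⟶ sph ι ⊗ dsc Z :=
  ofOpen (X := sph ι) (Y := sph ι ⊗ dsc Z) (cemb col) (isOpenEmbedding_cemb h)

@[reassoc]
theorem sphE_pinch {col : Z → ι → ℕ} (h : Function.Injective col) (e : ι ≃ ι) {f : Z → Z}
    (hf : Function.Surjective f) (w : ∀ z i, col (f z) i = col z (e.symm i)) :
    sphE e ≫ pinch h = pinch h ≫ (sphE e ⊗ₘ dmap f) := by
  refine ofOpen_comm _ _ (app_sphE e)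
    (b₀ := fun p : (ι → ℝ) × Dsc Z => (fun k => p.1 (e.symm k), Dsc.mk (f p.2.val))) ?_ ?_ ?_
  · rintro ⟨u, z⟩
    exact (app_tensorHom_smash (sphE e) (dmap f) (u : OnePoint (ι → ℝ)) (z : OnePoint (Dsc Z))).trans
      (congrArg (fun x => smash x _) (app_sphE e u))
  · rintro ⟨u, z⟩
    exact funext fun i => congrArg (fun n => bmp n _) (w _ i).symm
  · rintro u ⟨⟨u', z'⟩, hu⟩
    obtain ⟨z, hz⟩ := hf z'.val
    refine ⟨(fun i => u' (e i), Dsc.mk z), funext fun i => ?_⟩
    have := congrFun hu (e i)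
    simp only [Equiv.symm_apply_apply] at this
    rw [← this]
    change bmp (col z i) _ = bmp (col z'.val (e i)) _
    rw [← hz, w, Equiv.symm_apply_apply]

variable (ι Z) in
/-- the fold map -/
noncomputable def sfold : sph ι ⊗ dsc Z ⟶ sph ι := sph ι ◁ toPt (dsc Z) ≫ (ρ_ _).hom

@[reassoc]
theorem tensorHom_sfold (a : sph ι ⟶ sph ι) (f : Z → Z) :
    (a ⊗ₘ dmap f) ≫ sfold ι Z = sfold ι Z ≫ a := by
  rw [sfold, MonoidalCategory.tensorHom_def, Category.assoc, ← MonoidalCategory.whiskerLeft_comp_assoc, dmap_toPt,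
    ← whisker_exchange_assoc, rightUnitor_naturality, Category.assoc]

/-- The degree of the pinch map followed by the fold map is the number of colourings. -/
theorem map_pinch_sfold {C : Type u} [Category.{v} C] [Preadditive C] {T : LC ⥤ C}
    (hT : SphFun T) {col : Z → ι → ℕ} (h : Function.Injective col) :
    T.map (pinch h ≫ sfold ι Z) = Nat.card Z • 𝟙 _ := by
  have := Fintype.ofFinite Z
  let g : Z → (sph ι ⟶ sph ι) := fun z => ofOpen (X := sph ι) (Y := sph ι) _
    (P257.Z.isOpenEmbedding_mono' (fun i => bmp (col z i)) (fun _ => continuous_bmp _)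
      (fun _ => strictMono_bmp _))
  rw [hT.map_sum Finset.univ (g := g)
    (U := fun z => Set.range fun (u : ι → ℝ) (i : ι) => bmp (col z i) (u i)) ?_ ?_ ?_ ?_,
    Finset.sum_congr rfl fun z _ => (hT.htpy (P257.Z.homotopic_ofOpen_mono (fun i => bmp (col z i))
      (fun _ => continuous_bmp _) (fun _ => strictMono_bmp _))).symm.trans (T.map_id _),
    Finset.sum_const, Finset.card_univ, Nat.card_eq_fintype_card]
  · intro z _ z' _ n
    refine Set.disjoint_left.2 ?_
    rintro _ ⟨u, rfl⟩ ⟨u', e⟩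
    exact n (h (funext fun i => (bmp_inj (congrFun e i)).symm))
  · rintro z _ _ ⟨u, rfl⟩
    refine Eq.trans ?_ (app_ofOpen_coe (X := sph ι) (Y := sph ι) _ _ u).symm
    rw [app_comp]
    exact congrArg (app (sfold ι Z)) (app_ofOpen_coe (X := sph ι) (Y := sph ι ⊗ dsc Z) (cemb col)
      (isOpenEmbedding_cemb h) (u, Dsc.mk z))
  · intro z _ x hx
    exact app_ofOpen_of_notMem (X := sph ι) (Y := sph ι) _ _ hx
  · intro x hx
    rw [app_comp]
    refine (congrArg (app (sfold ι Z)) (app_ofOpen_of_notMem (X := sph ι) (Y := sph ι ⊗ dsc Z)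
      (cemb col) (isOpenEmbedding_cemb h) ?_)).trans (app_infty _)
    rintro ⟨⟨u, z⟩, e⟩
    exact hx z.val (Finset.mem_univ _) ⟨u, e⟩

end lc

variable {M : Type u} [Category.{v} M] [MonoidalCategory M] [SymmetricCategory M]
  [MonoidalClosed M] [HasZeroMorphisms M] [HasColimitsOfSize.{0, 0} M] [StabInput M]
variable {ι κ : Type} [Finite ι] [Finite κ]

variable (M ι) in
/-- the power of the circle is the sphere -/
noncomputable def sphJ : pw ι (S M) ≅ (J M).obj (sph ι) :=
  asIso (laxBig (J M) (fun _ : ι => RR)) ≪≫ (J M).mapIso (sphI ι).symm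

@[reassoc] theorem pwE_sphJ (e : ι ≃ κ) :
    pwE (S M) e ≫ (sphJ M κ).hom = (sphJ M ι).hom ≫ (J M).map (sphE e) := by
  have h : pwE (S M) e ≫ laxBig (J M) (fun _ : κ => RR) =
      laxBig (J M) (fun _ : ι => RR) ≫ (J M).map (pwE RR e) :=
    bigEquiv_laxBig (J M) e (fun _ => RR)
  simp only [sphJ, sphE, Iso.trans_hom, asIso_hom, Functor.mapIso_hom, Iso.symm_hom,
    Category.assoc, ← Functor.map_comp, Iso.inv_hom_id_assoc]
  rw [reassoc_of% h, Functor.map_comp]

variable (ι) in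
/-- the power of a suspension -/
noncomputable def thetaS (X : M) : pw ι (X ⊗ S M) ≅ pw ι X ⊗ (J M).obj (sph ι) :=
  bigTensor (fun _ : ι => X) (fun _ => S M) ≪≫ whiskerLeftIso _ (sphJ M ι)

@[reassoc] theorem pwE_thetaS (X : M) (e : ι ≃ κ) : pwE (X ⊗ S M) e ≫ (thetaS κ X).hom =
    (thetaS ι X).hom ≫ (pwE X e ⊗ₘ (J M).map (sphE e)) := by
  have h : pwE (X ⊗ S M) e ≫ (bigTensor (fun _ : κ => X) (fun _ => S M)).hom =
      (bigTensor (fun _ : ι => X) (fun _ => S M)).hom ≫ (pwE X e ⊗ₘ pwE (S M) e) :=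
    bigEquiv_bigTensor e (fun _ => X) (fun _ => S M)
  simp only [thetaS, Iso.trans_hom, whiskerLeftIso_hom, Category.assoc]
  rw [reassoc_of% h, ← id_tensorHom, ← id_tensorHom, tensorHom_comp_tensorHom,
    tensorHom_comp_tensorHom, pwE_sphJ, Category.comp_id, Category.id_comp]

@[reassoc]
theorem jmul_jpr (Y : M) (P : LC) {P' : LC} (q : P' ⟶ 𝟙_ LC) :
    (jmul Y P P').hom ≫ Y ◁ (J M).map (P ◁ q ≫ (ρ_ P).hom) = jpr q (Y ⊗ (J M).obj P) := by
  have h : (jmul Y P (𝟙_ LC)).hom ≫ Y ◁ (J M).map (ρ_ P).hom = jpr (𝟙 _) (Y ⊗ (J M).obj P) := by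
    rw [← cancel_epi (jpt (𝟙 (𝟙_ LC)) _), jpt_jmul_assoc, jpt_jpr_id,
      ← MonoidalCategory.whiskerLeft_comp, ← Functor.map_comp]
    simp
  rw [Functor.map_comp, MonoidalCategory.whiskerLeft_comp, ← jmul_nat_right_assoc, h, map_jpr,
    Category.comp_id]

variable {C : Type u'} [Category.{v'} C]

section th

variable [HasZeroMorphisms C] {st : M ⥤ C}

theorem Th.ex_cof (T : Th st) {X Y Q : M} {i : X ⟶ Y} {q : Y ⟶ Q} (hi : HCof i)
    (hq : IsCofibre i q) {A : C} (y : A ⟶ st.obj Y) (hy : y ≫ st.map q = 0) :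
    ∃ x, x ≫ st.map i = y := by
  obtain ⟨P, k, j, d, h⟩ := IsCone.exists_isCone i
  have he : StabInput.coneBase X ≫ (0 : X ⊗ CI M ⟶ Q) = i ≫ q := by
    rw [comp_zero, hq.comp_eq_zero]
  obtain ⟨g, g1, -⟩ := hi.exists_cone_inverse h.po (isZero_zero M)
    (hq.isPushout (isZero_zero M) 0 0) (h.po.desc 0 q he) (h.po.inl_desc _ _ _)
    (h.po.inr_desc _ _ _)
  refine T.ex₁ h A y ?_
  rw [← Category.comp_id j, st.map_comp, ← T.htpy g1, ← st.map_comp, h.po.inr_desc_assoc,
    st.map_comp, reassoc_of% hy, zero_comp]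

/-- the cone of a stable equivalence vanishes -/
theorem Th.van_cone (T : Th st) {X Y P : M} {f : X ⟶ Y} {k : X ⊗ CI M ⟶ P} {i : Y ⟶ P}
    {q : P ⟶ X ⊗ S M} (h : IsCone f k i q) [IsIso (st.map f)] [Mono (st.map (f ▷ S M))] (A : C) :
    Van st A P := fun y => by
  obtain ⟨x, rfl⟩ := T.ex₂ h A y (by
    rw [← cancel_mono (st.map (f ▷ S M)), Category.assoc, ← st.map_comp, T.htpy h.comp₃, T.zero,
      comp_zero, zero_comp])
  rw [← Category.comp_id x, ← IsIso.inv_hom_id (st.map f), Category.assoc, Category.assoc,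
    ← st.map_comp, T.htpy h.comp₁, T.zero, comp_zero, comp_zero]

end th

variable [Preadditive C] {st : M ⥤ C}

theorem Th.sphFun (T : Th st) (W : M) : SphFun (J M ⋙ tensorLeft W ⋙ st) where
  htpy h := T.htpy ((MHtpy.map h).whiskerLeft W)
  zero X Y := by
    change st.map (W ◁ (J M).map 0) = 0
    rw [J_map_zero, whiskerLeft_zero', T.zero]
  ext {X Y Z} f h1 h2 := by
    have hz := isZero_tensor_left (isZero_empty (M := M)) W
    have po := isPushout_tsum W X Y
    have hi : HCof (W ◁ (J M).map (sumInl X Y)) :=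
      HCof.of_isPushout po.flip (HCof.of_isZero hz _)
    obtain ⟨r, r1, r2, hr⟩ := IsCofibre.of_pushout po.flip (IsCofibre.of_isZero_src hz _ (𝟙 _))
    change st.obj (W ⊗ (J M).obj (sum X Y)) ⟶ Z at f
    change st.map (W ◁ (J M).map (sumInl X Y)) ≫ f = 0 at h1
    change st.map (W ◁ (J M).map (sumInr X Y)) ≫ f = 0 at h2
    obtain ⟨x, hx⟩ := T.ex_cof hi hr (𝟙 _ - st.map (r ≫ W ◁ (J M).map (sumInr X Y))) (by
      rw [Preadditive.sub_comp, Category.id_comp, ← st.map_comp, Category.assoc, r1,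
        Category.comp_id, sub_self])
    have := congrArg (· ≫ f) hx
    simpa [h1, h2] using this.symm

end Vale.Agent.P257.F
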