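import Vale.Agent.P257.F.Disc
import Vale.Agent.P251.H.GoodPi

/-!
# P257, block F: the tower `Y, Y ⊗ T, Y ⊗ T ⊗ T, …` and the general free lemma (abstract form)

`Th st`: a homotopy invariant functor `st : M ⥤ C` turning mapping cones into exact sequences.
-/

open CategoryTheory MonoidalCategory Limits Topology OnePoint

namespace Vale.Agent.P257.F

open Vale.Agent.P251.G Vale.Agent.P251.G.LC Vale.Agent.P251.H Vale.Agent.P251.H.LP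
open Vale.Agent.P251.H.StabInput

universe v u v' u'

variable {M : Type u} [Category.{v} M] [MonoidalCategory M] [SymmetricCategory M]
    [MonoidalClosed M] [HasZeroMorphisms M] [HasColimitsOfSize.{0, 0} M] [StabInput M]
    {C : Type u'} [Category.{v'} C] [HasZeroMorphisms C]

/-- homotopy invariant functors which are exact on mapping cones -/
structure Th (st : M ⥤ C) : Prop where
  htpy : ∀ {X Y : M} {f g : X ⟶ Y}, MHtpy f g → st.map f = st.map g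
  zero : ∀ X Y : M, st.map (0 : X ⟶ Y) = 0
  ex₁ : ∀ {X Y P : M} {f : X ⟶ Y} {k : X ⊗ CI M ⟶ P} {i : Y ⟶ P} {q : P ⟶ X ⊗ S M},
    IsCone f k i q → ∀ (A : C) (y : A ⟶ st.obj Y), y ≫ st.map i = 0 → ∃ x, x ≫ st.map f = y
  ex₂ : ∀ {X Y P : M} {f : X ⟶ Y} {k : X ⊗ CI M ⟶ P} {i : Y ⟶ P} {q : P ⟶ X ⊗ S M},
    IsCone f k i q → ∀ (A : C) (y : A ⟶ st.obj P), y ≫ st.map q = 0 → ∃ x, x ≫ st.map i = y

/-- all morphisms `A ⟶ st X` vanish -/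
def Van (st : M ⥤ C) (A : C) (X : M) : Prop := ∀ x : A ⟶ st.obj X, x = 0

namespace Van

variable {st : M ⥤ C} {A : C} {X Y : M}

omit [MonoidalCategory M] [SymmetricCategory M] [MonoidalClosed M] [HasZeroMorphisms M]
  [HasColimitsOfSize.{0, 0} M] [StabInput M] in
theorem of_retract' (h : Van st A X) (s : Y ⟶ X) (u : X ⟶ Y) (e : st.map (s ≫ u) = 𝟙 _) :
    Van st A Y := fun y => by
  rw [← Category.comp_id y, ← e, st.map_comp, ← Category.assoc, h (y ≫ st.map s), zero_comp]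

omit [MonoidalCategory M] [SymmetricCategory M] [MonoidalClosed M] [HasZeroMorphisms M]
  [HasColimitsOfSize.{0, 0} M] [StabInput M] in
theorem of_retract (h : Van st A X) (s : Y ⟶ X) (u : X ⟶ Y) (e : s ≫ u = 𝟙 Y) : Van st A Y :=
  h.of_retract' s u (by rw [e, st.map_id])

omit [MonoidalCategory M] [SymmetricCategory M] [MonoidalClosed M] [HasZeroMorphisms M]
  [HasColimitsOfSize.{0, 0} M] [StabInput M] in
theorem of_iso (h : Van st A X) (e : X ≅ Y) : Van st A Y :=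
  h.of_retract e.inv e.hom e.inv_hom_id

theorem of_isZero (T : Th st) (h : IsZero X) : Van st A X := fun x => by
  rw [← Category.comp_id x, ← st.map_id, h.eq_of_src (𝟙 X) 0, T.zero, comp_zero]

theorem cone (T : Th st) {P : M} {f : X ⟶ Y} {k : X ⊗ CI M ⟶ P} {i : Y ⟶ P} {q : P ⟶ X ⊗ S M}
    (h : IsCone f k i q) (hY : Van st A Y) (hX : Van st A (X ⊗ S M)) : Van st A P := fun y => by
  obtain ⟨x, rfl⟩ := T.ex₂ h A y (hX _)
  rw [hY x, zero_comp]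

theorem mid (T : Th st) {P : M} {f : X ⟶ Y} {k : X ⊗ CI M ⟶ P} {i : Y ⟶ P} {q : P ⟶ X ⊗ S M}
    (h : IsCone f k i q) (hX : Van st A X) (hP : Van st A P) : Van st A Y := fun y => by
  obtain ⟨x, rfl⟩ := T.ex₁ h A y (hP _)
  rw [hX x, zero_comp]

theorem cof (T : Th st) {Q : M} {i : X ⟶ Y} {q : Y ⟶ Q} (hi : HCof i) (hq : IsCofibre i q)
    (hX : Van st A X) (hQ : Van st A Q) : Van st A Y := by
  obtain ⟨P, k, j, d, h⟩ := IsCone.exists_isCone i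
  have he : StabInput.coneBase X ≫ (0 : X ⊗ CI M ⟶ Q) = i ≫ q := by
    rw [comp_zero, hq.comp_eq_zero]
  obtain ⟨g, g1, -⟩ := hi.exists_cone_inverse h.po (isZero_zero M)
    (hq.isPushout (isZero_zero M) 0 0) (h.po.desc 0 q he) (h.po.inl_desc _ _ _)
    (h.po.inr_desc _ _ _)
  exact mid T h hX (hQ.of_retract' _ g (by rw [T.htpy g1, st.map_id]))

theorem coprod (T : Th st) (hX : Van st A X) (hY : Van st A Y) : Van st A (X ⨿ Y) :=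
  cof T (hCof_inl X Y) (isCofibre_inl X Y) hX hY

theorem sigma (T : Th st) {ι : Type} [Finite ι] :
    ∀ (X : ι → M), (∀ i, Van st A (X i)) → Van st A (∐ X) := by
  refine Finite.induction_empty_option
    (P := fun ι => ∀ (X : ι → M), (∀ i, Van st A (X i)) → Van st A (∐ X)) ?_ ?_ ?_ ι
  · intro α β e ih X hX
    exact (ih _ (fun a => hX (e a))).of_iso (sigmaReindex e X)
  · intro X _
    refine of_isZero T ?_
    rw [IsZero.iff_id_eq_zero]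
    exact Sigma.hom_ext _ _ fun i => i.elim
  · intro α _ ih X hX
    exact (coprod T (hX none) (ih _ (fun a => hX (Option.some a)))).of_iso (sigmaOption X)

end Van

section tower

variable {Γ : Type} [Group Γ] {st : M ⥤ C}

/-- vanishing for the orbits under a subgroup -/
def OVan (st : M ⥤ C) (A : C) (K : Subgroup Γ) {Y : M} (ρ : Γ → (Y ⟶ Y)) : Prop :=
  ∀ (Q : M) (π : Y ⟶ Q), IsOrb (fun g : K => ρ g) π → Van st A Q

omit [MonoidalCategory M] [SymmetricCategory M] [MonoidalClosed M] [HasZeroMorphisms M]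
  [HasColimitsOfSize.{0, 0} M] [StabInput M] in
theorem OVan.of_isOrb {A : C} {K : Subgroup Γ} {Y Q : M} {ρ : Γ → (Y ⟶ Y)} {π : Y ⟶ Q}
    (h : IsOrb (fun g : K => ρ g) π) (hQ : Van st A Q) : OVan st A K ρ := fun _ _ h' => by
  obtain ⟨e, -⟩ := h.exists_iso h'
  exact hQ.of_iso e

omit [MonoidalCategory M] [SymmetricCategory M] [MonoidalClosed M] [HasZeroMorphisms M]
  [HasColimitsOfSize.{0, 0} M] [StabInput M] in
theorem OVan.bot {A : C} {Y : M} {ρ : Γ → (Y ⟶ Y)} (hρ : IsAct ρ) (h : Van st A Y) :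
    OVan st A ⊥ ρ :=
  OVan.of_isOrb (IsOrb.of_forall_eq_id fun g => by
    rw [Subgroup.mem_bot.mp g.2, hρ.one]) h

omit [MonoidalCategory M] [SymmetricCategory M] [MonoidalClosed M] [HasZeroMorphisms M]
  [HasColimitsOfSize.{0, 0} M] [StabInput M] in
theorem OVan.top {A : C} {Y Q : M} {ρ : Γ → (Y ⟶ Y)} (h : OVan st A ⊤ ρ) {π : Y ⟶ Q}
    (hπ : IsOrb ρ π) : Van st A Q :=
  h Q π (hπ.reindex (fun g => ⟨⟨g, trivial⟩, rfl⟩) (fun g => ⟨g.1, rfl⟩))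

variable {Z : Type} [Finite Z] [MulAction Γ Z]

theorem OVan.dsc (T : Th st) {A : C} {K : Subgroup Γ} {Y : M} {ρ : Γ → (Y ⟶ Y)} (hρ : IsAct ρ)
    (h : ∀ z : Z, OVan st A (K ⊓ MulAction.stabilizer Γ z) ρ) :
    OVan st A K (fun g => ρ g ⊗ₘ (J M).map (dmap (fun z : Z => g • z))) := by
  intro Q π hπ
  choose Q' π' h' using fun z : Z =>
    exists_isOrb (fun g : (K ⊓ MulAction.stabilizer Γ z : Subgroup Γ) => ρ g)
  obtain ⟨s, u, e⟩ := exists_retract_dsc hρ K hπ h'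
  exact (Van.sigma T Q' (fun z => h z _ _ (h' z))).of_retract s u e

/-- the orbits of `Y ⊗ Z₊ ⟶ Y ⟶ Y ⊗ TZ Z` form a mapping cone sequence -/
theorem exists_isCone_TZ {ι : Type} (φ : ι → Γ) {Y : M} (ρ : Γ → (Y ⟶ Y)) {Q₀ Q Q₁ : M}
    {π₀ : Y ⊗ (J M).obj (dsc Z) ⟶ Q₀} {π : Y ⟶ Q} {π₁ : Y ⊗ (J M).obj (TZ Z) ⟶ Q₁}
    (h₀ : IsOrb (fun g => ρ (φ g) ⊗ₘ (J M).map (dmap (fun z : Z => φ g • z))) π₀)
    (h : IsOrb (fun g => ρ (φ g)) π)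
    (h₁ : IsOrb (fun g => ρ (φ g) ⊗ₘ (J M).map (tmap (fun z : Z => φ g • z))) π₁)
    {f : Q₀ ⟶ Q} {i : Q ⟶ Q₁} (hf : π₀ ≫ f = jpr (toPt (dsc Z)) Y ≫ π)
    (hi : π ≫ i = jpt (tpt Z) Y ≫ π₁) :
    ∃ (k : Q₀ ⊗ CI M ⟶ Q₁) (q : Q₁ ⟶ Q₀ ⊗ S M), IsCone f k i q := by
  refine isCone_orb (isPushout_jTZ Y Z) (fun g => ?_) (fun g => ?_) h₀ h h₁ hf hi
  · have := jmul_nat (ρ (φ g)) (dmap (fun z : Z => φ g • z)) (𝟙 HH)
    rw [CategoryTheory.Functor.map_id, tensorHom_id, tensorHom_id] at this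
    rw [reassoc_of% this, Category.assoc, tensorHom_J_comm _ (tin_tmap _).symm]
  · rw [jpt_tensorHom, tpt_tmap]

theorem exists_orb_TZ {ι : Type} (φ : ι → Γ) {Y : M} (ρ : Γ → (Y ⟶ Y)) {Q Q₁ : M}
    {π : Y ⟶ Q} {π₁ : Y ⊗ (J M).obj (TZ Z) ⟶ Q₁} (h : IsOrb (fun g => ρ (φ g)) π)
    (h₁ : IsOrb (fun g => ρ (φ g) ⊗ₘ (J M).map (tmap (fun z : Z => φ g • z))) π₁)
    {i : Q ⟶ Q₁} (hi : π ≫ i = jpt (tpt Z) Y ≫ π₁) :
    ∃ (Q₀ : M) (π₀ : Y ⊗ (J M).obj (dsc Z) ⟶ Q₀) (f : Q₀ ⟶ Q) (k : Q₀ ⊗ CI M ⟶ Q₁)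
      (q : Q₁ ⟶ Q₀ ⊗ S M),
      IsOrb (fun g => ρ (φ g) ⊗ₘ (J M).map (dmap (fun z : Z => φ g • z))) π₀ ∧
        π₀ ≫ f = jpr (toPt (dsc Z)) Y ≫ π ∧ IsCone f k i q := by
  obtain ⟨Q₀, π₀, h₀⟩ :=
    exists_isOrb (fun g => ρ (φ g) ⊗ₘ (J M).map (dmap (fun z : Z => φ g • z)))
  obtain ⟨f, hf⟩ := h₀.exists_map h.w (jpr (toPt (dsc Z)) Y) (fun g => by
    rw [tensorHom_jpr, dmap_toPt])
  obtain ⟨k, q, hc⟩ := exists_isCone_TZ φ ρ h₀ h h₁ hf hi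
  exact ⟨Q₀, π₀, f, k, q, h₀, hf, hc⟩

variable (T : Th st) {A : ℕ → C} (hA : ∀ n X, Van st (A (n + 1)) X → Van st (A n) (X ⊗ S M))
  {fam : ℕ → Subgroup Γ → Prop}
  (hfam : ∀ n K (z : Z), fam n K → fam (n + 1) (K ⊓ MulAction.stabilizer Γ z))

include T hA hfam in
theorem good_TZ {Y : M} {ρ : Γ → (Y ⟶ Y)} (hρ : IsAct ρ)
    (h : ∀ n K, fam n K → OVan st (A n) K ρ) (n : ℕ) (K : Subgroup Γ) (hK : fam n K) :
    OVan st (A n) K (fun g => ρ g ⊗ₘ (J M).map (tmap (fun z : Z => g • z))) := by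
  intro Q₁ π₁ h₁
  obtain ⟨Q, π, hπ⟩ := exists_isOrb (fun g : K => ρ g)
  obtain ⟨i, hi⟩ := hπ.exists_map h₁.w (jpt (tpt Z) Y) (fun g => by rw [jpt_tensorHom, tpt_tmap])
  obtain ⟨Q₀, π₀, f, k, q, h₀, -, hc⟩ := exists_orb_TZ (fun g : K => (g : Γ)) ρ hπ h₁ hi
  exact Van.cone T hc (h n K hK Q π hπ) (hA n _ (OVan.dsc T hρ
    (fun z => h (n + 1) _ (hfam n K z hK)) Q₀ π₀ h₀))

include T hA hfam in
theorem tower_injective {K₀ : Subgroup Γ} (h0 : ∀ z : Z, fam 0 (K₀ ⊓ MulAction.stabilizer Γ z))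
    (n : ℕ) : ∀ {Y : M} {ρ : Γ → (Y ⟶ Y)} (_ : IsAct ρ)
      (_ : ∀ n K, fam n K → OVan st (A n) K ρ) {Q Q' : M} {π : Y ⟶ Q}
      {π' : Y ⊗ (J M).obj (Tp Z n) ⟶ Q'} (_ : IsOrb (fun g : K₀ => ρ g) π)
      (_ : IsOrb (fun g : K₀ => ρ g ⊗ₘ (J M).map (Tmap (fun z : Z => (g : Γ) • z) n)) π')
      {i : Q ⟶ Q'} (_ : π ≫ i = jpt (Tpt Z n) Y ≫ π') (x : A 0 ⟶ st.obj Q)
      (_ : x ≫ st.map i = 0), x = 0 := by
  induction n with
  | zero =>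
    intro Y ρ hρ h Q Q' π π' hπ hπ' i hi x hx
    obtain ⟨r, hr⟩ := hπ'.exists_map hπ.w (jpr (𝟙 (𝟙_ LC)) Y) (fun g =>
      (tensorHom_jpr (𝟙 (𝟙_ LC)) (𝟙 (𝟙_ LC)) (ρ g)).trans (by rw [Category.comp_id]; rfl))
    have e : i ≫ r = 𝟙 Q := hπ.ext (by
      rw [reassoc_of% hi, hr, Category.comp_id]
      exact jpt_jpr_id_assoc Y π)
    rw [← Category.comp_id x, ← st.map_id, ← e, st.map_comp, reassoc_of% hx, zero_comp]
  | succ n ih =>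
    intro Y ρ hρ h Q Q' π π' hπ hπ' i hi x hx
    obtain ⟨Q₁, π₁, h₁⟩ :=
      exists_isOrb (fun g : K₀ => ρ g ⊗ₘ (J M).map (tmap (fun z : Z => (g : Γ) • z)))
    obtain ⟨i₁, hi₁⟩ := hπ.exists_map h₁.w (jpt (tpt Z) Y)
      (fun g => by rw [jpt_tensorHom, tpt_tmap])
    have h₂ := hπ'.iso_comp (ρ' := fun g : K₀ =>
      (ρ g ⊗ₘ (J M).map (tmap (fun z : Z => (g : Γ) • z))) ⊗ₘ
        (J M).map (Tmap (fun z : Z => (g : Γ) • z) n)) (jmul Y (TZ Z) (Tp Z n))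
      (fun g => jmul_nat _ _ _)
    obtain ⟨i₂, hi₂⟩ := h₁.exists_map h₂.w (jpt (Tpt Z n) _)
      (fun g => by rw [jpt_tensorHom, Tpt_Tmap])
    have e : i₁ ≫ i₂ = i := hπ.ext (by
      rw [reassoc_of% hi₁, hi₂, hi]
      exact jpt_jpt_jmul_assoc (tpt Z) (Tpt Z n) Y π')
    have hx₁ : x ≫ st.map i₁ = 0 :=
      ih (hρ.tensor (isAct_tmap.map (J M))) (good_TZ T hA hfam hρ h) h₁ h₂ hi₂ _
        (by rw [Category.assoc, ← st.map_comp, e, hx])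
    obtain ⟨Q₀, π₀, f, k, q, h₀, -, hc⟩ := exists_orb_TZ (fun g : K₀ => (g : Γ)) ρ hπ h₁ hi₁
    obtain ⟨y, rfl⟩ := T.ex₁ hc _ x hx₁
    rw [OVan.dsc T hρ (fun z => h 0 _ (h0 z)) Q₀ π₀ h₀ y, zero_comp]

end tower

section free

/-- compact Hausdorff spaces with a free action -/
structure FreeSp (Γ : Type) [Group Γ] where
  /-- the space -/
  E : Type
  [top : TopologicalSpace E]
  [cpt : CompactSpace E]
  [t2 : T2Space E]
  [act : MulAction Γ E]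
  [cont : ContinuousConstSMul Γ E]
  free : ∀ (g : Γ) (e : E), g • e = e → g = 1

attribute [instance] FreeSp.top FreeSp.cpt FreeSp.t2 FreeSp.act FreeSp.cont

variable {Γ : Type} [Group Γ]

/-- the space as an object of `LC` -/
abbrev FreeSp.lc (E : FreeSp Γ) : LC := LC.of E.E

/-- the action -/
def FreeSp.σ (E : FreeSp Γ) (g : Γ) : E.lc ⟶ E.lc :=
  ofCompact (X := E.lc) (Y := E.lc) (fun e => g • e) (continuous_const_smul g)

theorem FreeSp.app_σ (E : FreeSp Γ) (g : Γ) (e : E.E) :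
    app (E.σ g) (e : OnePoint E.E) = ((g • e : E.E) : OnePoint E.E) := rfl

@[reassoc (attr := simp)]
theorem FreeSp.σ_toPt (E : FreeSp Γ) (g : Γ) : E.σ g ≫ toPt E.lc = toPt E.lc :=
  LC.hom_ext fun _ => rfl

/-- Morphisms from `A'` to orbits of `Y` lift to the orbits of `Y ⊗ E₊` with `E` free. -/
def Lifts {Y : M} (ρ : Γ → (Y ⟶ Y)) (A' : M) : Prop :=
  ∀ (K : Subgroup Γ) (Q : M) (π : Y ⟶ Q), IsOrb (fun g : K => ρ g) π → ∀ a : A' ⟶ Q,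
    ∃ (E : FreeSp Γ) (Q' : M) (π' : Y ⊗ (J M).obj E.lc ⟶ Q') (r : Q' ⟶ Q) (a' : A' ⟶ Q'),
      IsOrb (fun g : K => ρ g ⊗ₘ (J M).map (E.σ g)) π' ∧ π' ≫ r = jpr (toPt E.lc) Y ≫ π ∧
        a' ≫ r = a

variable [Finite Γ] {Z : Type} [Finite Z] [Nonempty Z] [MulAction Γ Z] {st : M ⥤ C}

theorem exists_mHtpy_zero (E : FreeSp Γ) : ∃ n : ℕ, ∀ {Y : M} (ρ : Γ → (Y ⟶ Y)) {ι : Type}
    (φ : ι → Γ) {Q₀ Q' : M} {π₀ : Y ⊗ (J M).obj E.lc ⟶ Q₀} {π' : Y ⊗ (J M).obj (Tp Z n) ⟶ Q'}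
    (_ : IsOrb (fun g => ρ (φ g) ⊗ₘ (J M).map (E.σ (φ g))) π₀)
    (_ : IsOrb (fun g => ρ (φ g) ⊗ₘ (J M).map (Tmap (fun z : Z => φ g • z) n)) π')
    {u : Q₀ ⟶ Q'} (_ : π₀ ≫ u = Y ◁ (J M).map (toPt E.lc ≫ Tpt Z n) ≫ π'), MHtpy u 0 := by
  obtain ⟨n, F, h1, h2, h3, h4⟩ := exists_null (Γ := Γ) (Z := Z) (E := E.E)
    (fun e => ⟨Classical.arbitrary Z, fun g hg => by rw [E.free g e hg, one_smul]⟩)
  refine ⟨n, fun {Y} ρ ι φ Q₀ Q' π₀ π' h₀ h' u hu => ?_⟩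
  let H : E.lc ⊗ II ⟶ Tp Z n := ofCpt (X := LC.of (E.E × unitInterval)) F h1
  have hH : ∀ g : Γ, E.σ g ▷ II ≫ H = H ≫ Tmap (fun z : Z => g • z) n := fun g =>
    LC.hom_ext fun p => h4 g p.1 p.2
  have H0 : incl 0 E.lc ≫ H = toPt E.lc ≫ Tpt Z n := LC.hom_ext fun e => h2 e
  have H1 : incl 1 E.lc ≫ H = 0 := LC.hom_ext fun e => h3 e
  refine h₀.mHtpy ((jmul Y E.lc II).hom ≫ Y ◁ (J M).map H ≫ π') (fun g => ?_) ?_ ?_
  · have := jmul_nat (ρ (φ g)) (E.σ (φ g)) (𝟙 II)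
    rw [CategoryTheory.Functor.map_id, tensorHom_id, tensorHom_id] at this
    rw [reassoc_of% this, tensorHom_J_comm_assoc _ (hH (φ g)), h'.w g]
  · rw [inc_eq_jpt, jpt_jmul_assoc, ← MonoidalCategory.whiskerLeft_comp_assoc, ← Functor.map_comp,
      hu, ← H0]
    rfl
  · rw [inc_eq_jpt, jpt_jmul_assoc, ← MonoidalCategory.whiskerLeft_comp_assoc, ← Functor.map_comp,
      comp_zero]
    change Y ◁ (J M).map (incl 1 E.lc ≫ H) ≫ π' = 0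
    rw [H1, map_zero_comp]

/-- **General free lemma**, abstract form. -/
theorem Th.general_free (T : Th st) {A : ℕ → C}
    (hA : ∀ n X, Van st (A (n + 1)) X → Van st (A n) (X ⊗ S M))
    {fam : ℕ → Subgroup Γ → Prop}
    (hfam : ∀ n K (z : Z), fam n K → fam (n + 1) (K ⊓ MulAction.stabilizer Γ z))
    {K₀ : Subgroup Γ} (h0 : ∀ z : Z, fam 0 (K₀ ⊓ MulAction.stabilizer Γ z))
    {Y : M} {ρ : Γ → (Y ⟶ Y)} (hρ : IsAct ρ) (h : ∀ n K, fam n K → OVan st (A n) K ρ)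
    (hrep : ∀ (Q : M) (x : A 0 ⟶ st.obj Q), ∃ (A' : M) (u : A 0 ⟶ st.obj A') (a : A' ⟶ Q),
      Lifts ρ A' ∧ x = u ≫ st.map a) : OVan st (A 0) K₀ ρ := by
  intro Q π hπ x
  obtain ⟨A', u, a, hl, rfl⟩ := hrep Q x
  obtain ⟨E, Q₀, π₀, r, a', h₀, hr, rfl⟩ := hl K₀ Q π hπ a
  obtain ⟨n, hn⟩ := exists_mHtpy_zero (M := M) (Z := Z) E
  obtain ⟨Q', π', hπ'⟩ :=
    exists_isOrb (fun g : K₀ => ρ g ⊗ₘ (J M).map (Tmap (fun z : Z => (g : Γ) • z) n))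
  obtain ⟨i, hi⟩ := hπ.exists_map hπ'.w (jpt (Tpt Z n) Y)
    (fun g => by rw [jpt_tensorHom, Tpt_Tmap])
  refine tower_injective T hA hfam h0 n hρ h hπ hπ' hi _ ?_
  have := hn ρ (fun g : K₀ => (g : Γ)) h₀ hπ' (u := r ≫ i)
    (by rw [reassoc_of% hr, hi, jpr_jpt_assoc])
  rw [Category.assoc, ← st.map_comp, Category.assoc, st.map_comp, T.htpy this, T.zero, comp_zero,
    comp_zero]

/-- **Free lemma**, abstract form. -/
theorem Th.free (T : Th st) {A : ℕ → C}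
    (hA : ∀ n X, Van st (A (n + 1)) X → Van st (A n) (X ⊗ S M))
    {Y : M} {ρ : Γ → (Y ⟶ Y)} (hρ : IsAct ρ) (h : ∀ n, Van st (A n) Y)
    (hrep : ∀ (Q : M) (x : A 0 ⟶ st.obj Q), ∃ (A' : M) (u : A 0 ⟶ st.obj A') (a : A' ⟶ Q),
      Lifts ρ A' ∧ x = u ≫ st.map a) (K₀ : Subgroup Γ) : OVan st (A 0) K₀ ρ := by
  have hs : ∀ (K : Subgroup Γ) (z : Γ), K ⊓ MulAction.stabilizer Γ z = ⊥ := fun K z => by
    rw [eq_bot_iff]
    intro g hg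
    exact Subgroup.mem_bot.mpr (mul_eq_right.mp hg.2)
  refine T.general_free (Z := Γ) hA (fam := fun _ K => K = ⊥) (fun _ K z _ => hs K z)
    (fun z => hs K₀ z) hρ ?_ hrep
  rintro n _ rfl
  exact OVan.bot hρ (h n)

end free

end Vale.Agent.P257.F
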