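import Vale.Agent.P257.F.Pinch

/-!
# P257, block F: the transfer

For a level-wise free action on `W` and a subgroup `H` of invertible index which is the stabilizer
of a colouring of `ι`, the map `(W ⊗ sph ι) / H ⟶ (W ⊗ sph ι) / Γ` is stably surjective.
-/

open CategoryTheory MonoidalCategory Limits Topology OnePoint

namespace Vale.Agent.P257.F

open Vale.Agent.P251.G Vale.Agent.P251.G.LC Vale.Agent.P251.H Vale.Agent.P251.H.LP
open Vale.Agent.P251.H.StabInput Vale.Agent.P257.A Vale.Agent.P257.C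

universe v u v' u'

variable {M : Type u} [Category.{v} M] [MonoidalCategory M] [SymmetricCategory M]
  [MonoidalClosed M] [HasZeroMorphisms M] [HasColimitsOfSize.{0, 0} M] [StabInput M]
  {C : Type u'} [Category.{v'} C] [Preadditive C] {st : M ⥤ C}
  {ι : Type} [Finite ι] {Γ : Type} [Group Γ] [Finite Γ]

omit [Finite Γ] in
theorem out_smul (H : Subgroup Γ) (g : Γ) (z : Γ ⧸ H) :
    ∃ h ∈ H, (g • z).out = g * z.out * h := by
  obtain ⟨h, e⟩ := QuotientGroup.mk_out_eq_mul H (g * z.out)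
  refine ⟨h, h.2, ?_⟩
  rw [← e, ← smul_eq_mul, MulAction.Quotient.mk_smul_out]

/-- an equivariant self map of a space which is a stable equivalence induces a stable surjection
on orbits -/
theorem Th.surj_orb (T : Th st) {A : ℕ → C}
    (hA : ∀ n X, Van st (A (n + 1)) X → Van st (A n) (X ⊗ S M))
    {W : M} {ρ : Γ → (W ⟶ W)} (hρ : IsAct ρ)
    (hrep : ∀ (P : LC) (σ : Γ → (P ⟶ P)) (Q : M) (x : A 0 ⟶ st.obj Q), ∃ (A' : M)
      (u : A 0 ⟶ st.obj A') (a : A' ⟶ Q),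
      Lifts (fun g => ρ g ⊗ₘ (J M).map (σ g)) A' ∧ x = u ≫ st.map a)
    {P : LC} {σ : Γ → (P ⟶ P)} (hσ : IsAct σ) {φ : P ⟶ P} (hφ : ∀ g, φ ≫ σ g = σ g ≫ φ)
    (hi : ∀ V : M, IsIso (st.map (V ◁ (J M).map φ))) {Q : M} {π : W ⊗ (J M).obj P ⟶ Q}
    (hπ : IsOrb (fun g => ρ g ⊗ₘ (J M).map (σ g)) π) {f : Q ⟶ Q}
    (hf : π ≫ f = W ◁ (J M).map φ ≫ π) (x : A 0 ⟶ st.obj Q) : ∃ y, y ≫ st.map f = x := by
  let σ₀ : Γ → (cone φ ⟶ cone φ) := fun g => coneMap (σ g) (σ g) (hφ g)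
  have h₀ : IsAct σ₀ := ⟨cone_hom_ext _ (by simp [σ₀, hσ.one]) (by simp [σ₀, hσ.one]),
    fun g h => cone_hom_ext _ (by simp [σ₀, hσ.mul]) (by simp [σ₀, hσ.mul])⟩
  obtain ⟨Q₁, π₁, h₁⟩ := exists_isOrb (fun g => ρ g ⊗ₘ (J M).map (σ₀ g))
  have hinr : ∀ g, (ρ g ⊗ₘ (J M).map (σ g)) ≫ W ◁ (J M).map (coneInr φ) =
      W ◁ (J M).map (coneInr φ) ≫ (ρ g ⊗ₘ (J M).map (σ₀ g)) := fun g =>
    tensorHom_J_comm _ (coneInr_map _ _ _).symm
  obtain ⟨i, hi'⟩ := hπ.exists_map h₁.w _ hinr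
  have po := isPushout_jcone W (isPushout_cone φ)
  obtain ⟨k, q, hc⟩ := isCone_orb po (fun g => by
    have := jmul_nat (ρ g) (σ g) (𝟙 HH)
    rw [CategoryTheory.Functor.map_id, tensorHom_id, tensorHom_id] at this
    rw [reassoc_of% this, Category.assoc, tensorHom_J_comm _ (coneInl_map _ _ _).symm])
    hinr hπ hπ h₁ hf hi'
  have w : StabInput.coneBase _ ≫ (W ⊗ (J M).obj P) ◁ collM =
      W ◁ (J M).map φ ≫ (0 : _ ⟶ _ ⊗ S M) := by rw [coneBase_collM, comp_zero]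
  have hc₀ : IsCone _ _ _ (po.desc _ _ w) := ⟨po, po.inl_desc _ _ _, po.inr_desc _ _ _⟩
  have := hi W
  have := hi (W ⊗ S M)
  have : IsIso (st.map ((W ◁ (J M).map φ) ▷ S M)) := by
    have e : (W ◁ (J M).map φ) ▷ S M = ((α_ _ _ _).hom ≫ W ◁ (β_ _ _).hom ≫ (α_ _ _ _).inv) ≫
        (W ⊗ S M) ◁ (J M).map φ ≫ (α_ _ _ _).hom ≫ W ◁ (β_ _ _).hom ≫ (α_ _ _ _).inv := by
      simp only [Category.assoc, tensor_whiskerLeft, Iso.inv_hom_id_assoc, whisker_assoc,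
        ← MonoidalCategory.whiskerLeft_comp_assoc, BraidedCategory.braiding_naturality_right,
        SymmetricCategory.symmetry_assoc]
    rw [e]
    simp only [st.map_comp]
    infer_instance
  have hv : Van st (A 0) Q₁ :=
    (T.free hA (hρ.tensor (h₀.map (J M))) (fun n => T.van_cone hc₀ (A n)) (hrep _ σ₀) ⊤).top h₁
  exact T.ex₁ hc _ x (hv _)

/-- **The transfer.** -/
theorem Th.transfer (T : Th st) {A : ℕ → C}
    (hA : ∀ n X, Van st (A (n + 1)) X → Van st (A n) (X ⊗ S M))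
    {W : M} {ρ : Γ → (W ⟶ W)} (hρ : IsAct ρ)
    (hrep : ∀ (P : LC) (σ : Γ → (P ⟶ P)) (Q : M) (x : A 0 ⟶ st.obj Q), ∃ (A' : M)
      (u : A 0 ⟶ st.obj A') (a : A' ⟶ Q),
      Lifts (fun g => ρ g ⊗ₘ (J M).map (σ g)) A' ∧ x = u ≫ st.map a)
    (φ : Γ →* Equiv.Perm ι) (c₀ : ι → ℕ) (H : Subgroup Γ)
    (hH : ∀ g, g ∈ H ↔ ∀ i, c₀ (φ g i) = c₀ i) (hinv : ∀ X : C, IsIso (H.index • 𝟙 X))
    {Q Q' : M} {π : W ⊗ (J M).obj (sph ι) ⟶ Q}
    (hπ : IsOrb (fun g => ρ g ⊗ₘ (J M).map (sphE (φ g))) π) {π' : W ⊗ (J M).obj (sph ι) ⟶ Q'}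
    (hπ' : ∀ g ∈ H, (ρ g ⊗ₘ (J M).map (sphE (φ g))) ≫ π' = π') {q : Q' ⟶ Q} (hq : π' ≫ q = π)
    (x : A 0 ⟶ st.obj Q) : ∃ y, y ≫ st.map q = x := by
  let col : Γ ⧸ H → ι → ℕ := fun z i => c₀ (φ z.out⁻¹ i)
  have hcol : Function.Injective col := fun z z' e => by
    rw [← z.out_eq, ← z'.out_eq]
    refine QuotientGroup.eq.2 ((hH _).2 fun i => ?_)
    have := congrFun e (φ z'.out i)
    rw [map_mul, Equiv.Perm.mul_apply]
    refine this.trans ?_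
    change c₀ ((φ z'.out⁻¹ * φ z'.out) i) = _
    rw [← map_mul, inv_mul_cancel, map_one, Equiv.Perm.one_apply]
  have hw : ∀ (g : Γ) z i, col (g • z) i = col z ((φ g).symm i) := fun g z i => by
    obtain ⟨h, hh, e⟩ := out_smul H g z
    change c₀ (φ (g • z).out⁻¹ i) = c₀ (φ z.out⁻¹ ((φ g)⁻¹ i))
    rw [e, mul_inv_rev, mul_inv_rev, map_mul, map_mul, Equiv.Perm.mul_apply,
      (hH _).1 (H.inv_mem hh), Equiv.Perm.mul_apply, map_inv φ g]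
  have hσ : IsAct (fun g => sphE (φ g)) := isAct_sphE.comp_hom φ
  have hY := hρ.tensor (hσ.map (J M))
  have hp : ∀ g : Γ, sphE (φ g) ≫ pinch hcol =
      pinch hcol ≫ (sphE (φ g) ⊗ₘ dmap (fun z : Γ ⧸ H => g • z)) := fun g =>
    sphE_pinch hcol _ (MulAction.surjective g) (hw g)
  let t₀ : (W ⊗ (J M).obj (sph ι)) ⊗ (J M).obj (dsc (Γ ⧸ H)) ⟶ Q' :=
    dscDesc fun z => (ρ z.out⁻¹ ⊗ₘ (J M).map (sphE (φ z.out⁻¹))) ≫ π'
  have ht₀ : ∀ g : Γ, ((ρ g ⊗ₘ (J M).map (sphE (φ g))) ⊗ₘ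
      (J M).map (dmap (fun z : Γ ⧸ H => g • z))) ≫ t₀ = t₀ := fun g => dsc_ext fun z => by
    obtain ⟨h, hh, e⟩ := out_smul H g z
    rw [jpt_tensorHom_assoc, dpt_dmap, jpt_dscDesc, jpt_dscDesc, ← Category.assoc, ← hY.mul, e,
      show (g * z.out * h)⁻¹ * g = h⁻¹ * z.out⁻¹ by group, hY.mul, Category.assoc,
      hπ' _ (H.inv_mem hh)]
  have ht₁ : t₀ ≫ q = jpr (toPt (dsc (Γ ⧸ H))) _ ≫ π := dsc_ext fun z => by
    rw [jpt_dscDesc_assoc, Category.assoc, hq, hπ.w, jpt_jpr_assoc _ _ (dpt_toPt z)]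
  obtain ⟨tr, htr⟩ := hπ.desc (W ◁ (J M).map (pinch hcol) ≫ (jmul W _ _).inv ≫ t₀) (fun g => by
    have := jmul_nat (ρ g) (sphE (φ g)) (dmap (fun z : Γ ⧸ H => g • z))
    rw [← Iso.eq_comp_inv, Category.assoc, ← Iso.inv_comp_eq] at this
    rw [tensorHom_J_comm_assoc _ (hp g), ← reassoc_of% this, ht₀])
  obtain ⟨y, hy⟩ := T.surj_orb hA hρ hrep hσ (φ := pinch hcol ≫ sfold ι _)
    (fun g => by rw [sphE_pinch_assoc hcol _ (MulAction.surjective g) (hw g), tensorHom_sfold,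
      Category.assoc])
    (fun V => by
      have := map_pinch_sfold (T.sphFun V) hcol
      change st.map (V ◁ (J M).map _) = _ at this
      rw [this]
      exact hinv _) hπ (f := tr ≫ q) (by
      rw [reassoc_of% htr, ht₁, ← jmul_jpr, Category.assoc, Iso.inv_hom_id_assoc,
        Functor.map_comp (J M) (pinch hcol), MonoidalCategory.whiskerLeft_comp, Category.assoc]
      rfl) x
  exact ⟨y ≫ st.map tr, by rw [Category.assoc, ← st.map_comp, hy]⟩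

end Vale.Agent.P257.F
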